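import Mathlib
import Vale.Agent.P078.Semi.SpectralComm

/-!
# A MASA is the norm closed span of its projections
-/

open scoped InnerProductSpace ComplexOrder
open ContinuousLinearMap

namespace Vale.Agent.P078

universe u

variable {H : Type u} [NormedAddCommGroup H] [InnerProductSpace ℂ H] [CompleteSpace H]

namespace Gen

open Semi

lemma exists_proj_combo {M : VonNeumannAlgebra H} {A : StarSubalgebra ℂ (H →L[ℂ] H)}
    (hA : IsMASA M A) {b : H →L[ℂ] H} (hbA : b ∈ A) (hb : IsSelfAdjoint b) {h : ℝ} (hh : 0 < h) :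
    ∃ (N : ℕ) (E : ℕ → H →L[ℂ] H) (t : ℕ → ℝ), (∀ k, E k ∈ A ∧ IsStarProjection (E k)) ∧
      ‖b - ∑ k ∈ Finset.range N, (t k : ℂ) • E k‖ ≤ h := by
  let θ : ℕ → ℝ := fun k => -‖b‖ - h + k * h
  obtain ⟨N, hN⟩ := exists_nat_gt ((2 * ‖b‖ + h) / h)
  rw [div_lt_iff₀ hh] at hN
  let E : ℕ → H →L[ℂ] H := fun k => cut b (θ k) - cut b (θ (k + 1))
  have hθ : ∀ k l, k < l → θ k < θ l := fun k l hkl => by
    simp only [θ]
    have : (k : ℝ) < l := Nat.cast_lt.2 hkl
    nlinarith
  have hcA : ∀ k, cut b (θ k) ∈ A := fun k => cut_mem_masa hA hb hbA _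
  have hanti : ∀ k l, k ≤ l → cut b (θ k) * cut b (θ l) = cut b (θ l) := fun k l hkl => by
    rcases hkl.eq_or_lt with rfl | h
    · exact cut_mul_self _ _
    · exact cut_anti hb (hθ k l h)
  have hanti' : ∀ k l, k ≤ l → cut b (θ l) * cut b (θ k) = cut b (θ l) := fun k l hkl => by
    rw [hA.2.1 _ (hcA l) _ (hcA k), hanti k l hkl]
  have hEp : ∀ k, IsStarProjection (E k) := fun k => by
    refine ⟨?_, (cut_isStarProjection _ _).isSelfAdjoint.sub (cut_isStarProjection _ _).isSelfAdjoint⟩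
    show (cut b (θ k) - cut b (θ (k + 1))) * (cut b (θ k) - cut b (θ (k + 1))) = _
    rw [sub_mul, mul_sub, mul_sub, cut_mul_self, hanti k _ k.le_succ, hanti' k _ k.le_succ,
      cut_mul_self, sub_self, sub_zero]
  have hEA : ∀ k, E k ∈ A := fun k => sub_mem (hcA k) (hcA (k + 1))
  refine ⟨N, E, θ, fun k => ⟨hEA k, hEp k⟩, ?_⟩
  have hsum : ∑ k ∈ Finset.range N, E k = 1 := by
    rw [cut_chain_sum, cut_eq_one hb (by simp only [θ]; push_cast; linarith),
      cut_eq_zero hb (by simp only [θ]; linarith), sub_zero]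
  have horth : ∀ k l, k < l → E k * E l = 0 := fun k l hkl => by
    show (cut b (θ k) - cut b (θ (k + 1))) * (cut b (θ l) - cut b (θ (l + 1))) = 0
    rw [sub_mul, mul_sub, mul_sub, hanti k l (by omega), hanti k (l + 1) (by omega),
      hanti (k + 1) l (by omega), hanti (k + 1) (l + 1) (by omega), sub_self]
  have horth' : ∀ k ∈ Finset.range N, ∀ l ∈ Finset.range N, k ≠ l → E k * E l = 0 := by
    intro k _ l _ hkl
    rcases lt_or_gt_of_ne hkl with h | h
    · exact horth k l h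
    · rw [hA.2.1 _ (hEA k) _ (hEA l), horth l k h]
  have hdec : ∀ v, (b - ∑ k ∈ Finset.range N, (θ k : ℂ) • E k) v
      = ∑ k ∈ Finset.range N, E k (((b - θ k • (1 : H →L[ℂ] H)) * E k) (E k v)) := by
    intro v
    have e1 : b - ∑ k ∈ Finset.range N, (θ k : ℂ) • E k
        = ∑ k ∈ Finset.range N, (b - θ k • (1 : H →L[ℂ] H)) * E k := by
      simp only [sub_mul, smul_mul_assoc, one_mul, Complex.coe_smul, Finset.sum_sub_distrib]
      rw [← Finset.mul_sum, hsum, mul_one]
    rw [e1, sum_apply]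
    refine Finset.sum_congr rfl fun k _ => ?_
    have hc : Commute (E k) (b - θ k • (1 : H →L[ℂ] H)) :=
      (commute_sub_smul (θ k) (show Commute (E k) b from hA.2.1 _ (hEA k) _ hbA)).symm
    have e2 : E k * ((b - θ k • (1 : H →L[ℂ] H)) * E k * E k)
        = (b - θ k • (1 : H →L[ℂ] H)) * E k := by
      simp only [mul_assoc, (hEp k).isIdempotentElem.eq]
      rw [← mul_assoc, hc.eq, mul_assoc, (hEp k).isIdempotentElem.eq]
    exact (congrArg (fun T : H →L[ℂ] H => T v) e2).symm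
  refine opNorm_le_bound _ hh.le fun v => ?_
  refine le_of_pow_le_pow_left₀ two_ne_zero (by positivity) ?_
  rw [hdec, norm_sq_sum_orth _ (fun k _ => hEp k) horth'
    (fun k => ((b - θ k • (1 : H →L[ℂ] H)) * E k) (E k v))]
  have hterm : ∀ k ∈ Finset.range N,
      ‖E k (((b - θ k • (1 : H →L[ℂ] H)) * E k) (E k v))‖ ^ 2 ≤ h ^ 2 * ‖E k v‖ ^ 2 := fun k _ => by
    rw [← mul_pow]
    refine pow_le_pow_left₀ (norm_nonneg _) ((norm_proj_apply_le (hEp k) _).trans
      (window_apply (θ := θ k) hb hh.le (hEp k) (hA.2.1 _ (hEA k) _ hbA) ?_ ?_ (E k v))) 2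
    · show cut b (θ k) * (cut b (θ k) - cut b (θ (k + 1))) = _
      rw [mul_sub, cut_mul_self, hanti k (k + 1) k.le_succ]
    · have : θ k + h = θ (k + 1) := by simp only [θ]; push_cast; ring
      show cut b (θ k + h) * (cut b (θ k) - cut b (θ (k + 1))) = 0
      rw [this, mul_sub, cut_mul_self, hanti' k (k + 1) k.le_succ, sub_self]
  refine (Finset.sum_le_sum hterm).trans ?_
  rw [← Finset.mul_sum, ← norm_sq_sum_orth _ (fun k _ => hEp k) horth' (fun _ => v), ← sum_apply,
    hsum]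
  exact (mul_pow _ _ _).symm.le

/-- A closed subspace containing the projections of a MASA contains the MASA. -/
lemma mem_of_proj_mem {M : VonNeumannAlgebra H} {A : StarSubalgebra ℂ (H →L[ℂ] H)}
    (hA : IsMASA M A) (S : Submodule ℂ (H →L[ℂ] H)) (hS : IsClosed (S : Set (H →L[ℂ] H)))
    (h : ∀ e ∈ A, IsStarProjection e → e ∈ S) {a : H →L[ℂ] H} (ha : a ∈ A) : a ∈ S := by
  have hs : ∀ b ∈ A, IsSelfAdjoint b → b ∈ S := fun b hbA hb => by
    rw [← SetLike.mem_coe, ← hS.closure_eq, Metric.mem_closure_iff]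
    intro η hη
    obtain ⟨N, E, t, hE, hle⟩ := exists_proj_combo hA hbA hb (half_pos hη)
    refine ⟨∑ k ∈ Finset.range N, (t k : ℂ) • E k,
      S.sum_mem fun k _ => S.smul_mem _ (h _ (hE k).1 (hE k).2), ?_⟩
    rw [dist_eq_norm]
    linarith
  have hre : (realPart a : H →L[ℂ] H) ∈ A := by
    rw [realPart_apply_coe, ← Complex.coe_smul]
    exact A.smul_mem (add_mem ha (star_mem ha)) _
  have him : (imaginaryPart a : H →L[ℂ] H) ∈ A := by
    rw [imaginaryPart_apply_coe, ← Complex.coe_smul]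
    exact A.smul_mem (A.smul_mem (sub_mem ha (star_mem ha)) _) _
  rw [← realPart_add_I_smul_imaginaryPart a]
  exact S.add_mem (hs _ hre (realPart a).2) (S.smul_mem _ (hs _ him (imaginaryPart a).2))

end Gen

end Vale.Agent.P078
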