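import Mathlib
import Vale.Agent.P078.Defs
import Vale.Agent.P078.Semi.Defs

/-!
# Approximation by semifinite intermediate algebras
-/

open scoped InnerProductSpace

namespace Vale.Agent.P078

universe u

variable {H : Type u} [NormedAddCommGroup H] [InnerProductSpace ℂ H] [CompleteSpace H]

/-- `ξ` gives a faithful normal positive functional `x ↦ ∑' i, ⟪ξ i, x (ξ i)⟫` on `M` which
commutes with `A`. -/
def IsCentralVectorFamily (M : VonNeumannAlgebra H) (A : StarSubalgebra ℂ (H →L[ℂ] H))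
    {ι : Type u} (ξ : ι → H) : Prop :=
  Summable (fun i => ‖ξ i‖ ^ 2) ∧ (∀ x ∈ M, (∀ i, x (ξ i) = 0) → x = 0) ∧
    ∀ a ∈ A, ∀ x ∈ M, ∑' i, ⟪ξ i, (a * x) (ξ i)⟫_ℂ = ∑' i, ⟪ξ i, (x * a) (ξ i)⟫_ℂ

/-- Every self-adjoint element of `M` can be approximated, without increasing the norm and in the
square summable norm of the family `ξ`, inside von Neumann algebras between `A` and `M` which
have semifinite traces. -/
def IsSemifinitelyApproximated (M : VonNeumannAlgebra H) (A : StarSubalgebra ℂ (H →L[ℂ] H))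
    {ι : Type u} (ξ : ι → H) : Prop :=
  ∀ x ∈ M, IsSelfAdjoint x → ∀ δ : ℝ, 0 < δ →
    ∃ (N : VonNeumannAlgebra H) (κ : Type u) (ζ : κ → H), (∀ y ∈ N, y ∈ M) ∧ (∀ a ∈ A, a ∈ N) ∧
      IsFaithfulSemifiniteTrace N ζ ∧
      ∃ x' ∈ N, IsSelfAdjoint x' ∧ ‖x'‖ ≤ ‖x‖ ∧ ∑' i, ‖(x - x') (ξ i)‖ ^ 2 ≤ δ

end Vale.Agent.P078
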