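import Mathlib
import Vale.Agent.P078.Semi.Main
import Vale.Agent.P078.Gen.ApproxSpec

/-!
# So-paving for inclusions approximated by semifinite intermediate algebras
-/

open scoped InnerProductSpace
open ContinuousLinearMap

namespace Vale.Agent.P078

universe u

variable {H : Type u} [NormedAddCommGroup H] [InnerProductSpace ℂ H] [CompleteSpace H]

namespace Gen

open Semi

variable {A : StarSubalgebra ℂ (H →L[ℂ] H)} {M : VonNeumannAlgebra H} {ι : Type u} {ξ : ι → H}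

lemma summable_sq_apply (hξ : Summable fun i => ‖ξ i‖ ^ 2) (x : H →L[ℂ] H) :
    Summable fun i => ‖x (ξ i)‖ ^ 2 :=
  Summable.of_nonneg_of_le (fun i => sq_nonneg _)
    (fun i => by rw [← mul_pow]; exact pow_le_pow_left₀ (norm_nonneg _) (x.le_opNorm _) 2)
    (hξ.mul_left (‖x‖ ^ 2))

lemma summable_inner_apply (hξ : Summable fun i => ‖ξ i‖ ^ 2) (x : H →L[ℂ] H) :
    Summable fun i => ⟪ξ i, x (ξ i)⟫_ℂ :=
  Summable.of_norm_bounded (hξ.mul_left ‖x‖) fun i => by
    refine (norm_inner_le_norm _ _).trans ?_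
    refine (mul_le_mul_of_nonneg_left (x.le_opNorm _) (norm_nonneg _)).trans_eq ?_
    ring

/-- Vectors at which contractions of `M` are small once they are small at the family `ξ`. -/
def famSmallSub (M : VonNeumannAlgebra H) (ξ : ι → H) : Submodule ℂ H where
  carrier := {v | ∀ δ > 0, ∃ η > 0, ∀ x ∈ M, ‖x‖ ≤ 1 → (∀ i, ‖x (ξ i)‖ ≤ η) → ‖x v‖ ≤ δ}
  zero_mem' := fun δ hδ => ⟨1, one_pos, fun x _ _ _ => by simpa using hδ.le⟩
  add_mem' := by
    intro v w hv hw δ hδ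
    obtain ⟨a, ha, hva⟩ := hv (δ / 2) (half_pos hδ)
    obtain ⟨b, hb, hwb⟩ := hw (δ / 2) (half_pos hδ)
    refine ⟨min a b, lt_min ha hb, fun x hx hC hs => ?_⟩
    rw [map_add]
    refine (norm_add_le _ _).trans ?_
    linarith [hva x hx hC fun n => (hs n).trans (min_le_left _ _),
      hwb x hx hC fun n => (hs n).trans (min_le_right _ _)]
  smul_mem' := by
    intro c v hv δ hδ
    obtain ⟨a, ha, hva⟩ := hv (δ / (‖c‖ + 1)) (by positivity)
    refine ⟨a, ha, fun x hx hC hs => ?_⟩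
    rw [map_smul, norm_smul]
    refine (mul_le_mul (le_add_of_nonneg_right zero_le_one) (hva x hx hC hs) (norm_nonneg _)
      (by positivity)).trans_eq ?_
    field_simp

lemma isClosed_famSmallSub : IsClosed (famSmallSub M ξ : Set H) := by
  rw [← closure_subset_iff_isClosed]
  intro v hv δ hδ
  obtain ⟨w, hw, hd⟩ := Metric.mem_closure_iff.1 hv (δ / 2) (half_pos hδ)
  obtain ⟨a, ha, hwa⟩ := hw (δ / 2) (half_pos hδ)
  refine ⟨a, ha, fun x hx hC hs => ?_⟩
  have h1 : ‖x (v - w)‖ ≤ δ / 2 := by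
    refine (x.le_opNorm _).trans ((mul_le_of_le_one_left (norm_nonneg _) hC).trans ?_)
    rw [← dist_eq_norm]; exact hd.le
  have h3 : x v = x (v - w) + x w := by rw [map_sub, sub_add_cancel]
  rw [h3]
  linarith [norm_add_le (x (v - w)) (x w), hwa x hx hC hs]

lemma famSmallSub_eq_top (hξ : IsCentralVectorFamily M A ξ) (v : H) : v ∈ famSmallSub M ξ := by
  let G : Submodule ℂ H := Submodule.span ℂ {v | ∃ y ∈ M.commutant, ∃ i, y (ξ i) = v}
  have hG : G ≤ famSmallSub M ξ := by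
    refine Submodule.span_le.2 ?_
    rintro v ⟨y, hy, i, rfl⟩ δ hδ
    refine ⟨δ / (‖y‖ + 1), by positivity, fun x hx _ hs => ?_⟩
    rw [apply_mul x y, ← (commute_commutant hx hy).eq]
    refine (y.le_opNorm _).trans ?_
    refine (mul_le_mul (le_add_of_nonneg_right zero_le_one) (hs i) (norm_nonneg _)
      (by positivity)).trans_eq ?_
    field_simp
  set K := G.topologicalClosure with hK
  have hmem : K.starProjection ∈ M := by
    rw [VonNeumannAlgebra.IsStarProjection.mem_iff isStarProjection_starProjection]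
    intro y hy
    rw [Submodule.range_starProjection, Module.End.mem_invtSubmodule]
    intro w hw
    have hmap : Set.MapsTo y (G : Set H) (G : Set H) := fun u hu => by
      induction hu using Submodule.span_induction with
      | mem u hu =>
        obtain ⟨z, hz, i, rfl⟩ := hu
        exact Submodule.subset_span ⟨y * z, mul_mem hy hz, i, rfl⟩
      | zero => simp
      | add a b _ _ ha hb => rw [map_add]; exact Submodule.add_mem _ ha hb
      | smul c a _ ha => rw [map_smul]; exact Submodule.smul_mem _ c ha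
    rw [hK, ← SetLike.mem_coe, Submodule.topologicalClosure_coe] at hw
    show y w ∈ K
    rw [hK, ← SetLike.mem_coe, Submodule.topologicalClosure_coe]
    exact hmap.closure y.continuous hw
  have h1 : 1 - K.starProjection = 0 := hξ.2.1 _ (sub_mem (one_mem M) hmem) fun i => by
    have hi : ξ i ∈ K :=
      G.le_topologicalClosure (Submodule.subset_span ⟨1, one_mem _, i, rfl⟩)
    simp [K.starProjection_eq_self_iff.2 hi]
  refine G.topologicalClosure_minimal hG isClosed_famSmallSub ?_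
  show v ∈ K
  rw [← Submodule.starProjection_eq_self_iff (K := K), ← sub_eq_zero.1 h1]
  rfl

lemma exists_fam_small (hξ : IsCentralVectorFamily M A ξ) (F : Finset H) {δ : ℝ} (hδ : 0 < δ) :
    ∃ η > 0, ∀ x ∈ M, ‖x‖ ≤ 1 → ∑' i, ‖x (ξ i)‖ ^ 2 ≤ η ^ 2 → ∀ v ∈ F, ‖x v‖ ≤ δ := by
  classical
  induction F using Finset.induction_on with
  | empty => exact ⟨1, one_pos, by simp⟩
  | insert v F _ ih =>
    obtain ⟨a, ha, hF⟩ := ih
    obtain ⟨b, hb, hv⟩ := famSmallSub_eq_top hξ v δ hδ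
    refine ⟨min a b, lt_min ha hb, fun x hx h1 hs w hw => ?_⟩
    rcases Finset.mem_insert.1 hw with rfl | hw
    · refine hv x hx h1 fun i => ?_
      refine le_of_pow_le_pow_left₀ two_ne_zero hb.le ?_
      exact ((summable_sq_apply hξ.1 x).le_tsum i fun j _ => sq_nonneg _).trans
        (hs.trans (pow_le_pow_left₀ (lt_min ha hb).le (min_le_right _ _) 2))
    · exact hF x hx h1 (hs.trans (pow_le_pow_left₀ (lt_min ha hb).le (min_le_left _ _) 2)) w hw

lemma re_inner_sq {y : H →L[ℂ] H} (hy : IsSelfAdjoint y) (v : H) :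
    ⟪v, (y * y) v⟫_ℂ = ((‖y v‖ ^ 2 : ℝ) : ℂ) := by
  show ⟪v, y (y v)⟫_ℂ = _
  rw [← adjoint_inner_left y, ← star_eq_adjoint, hy.star_eq, inner_self_eq_norm_sq_to_K]
  simp

/-- Pinching by projections commuting with the functional is a contraction of the square
summable norm. -/
lemma tsum_sq_pinch_le (hA : IsMASA M A) (hξ : IsCentralVectorFamily M A ξ) {r : ℕ}
    {p : Fin r → H →L[ℂ] H} (hp : IsPartition A p) {y : H →L[ℂ] H} (hy : y ∈ M)
    (hys : IsSelfAdjoint y) :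
    ∑' i, ‖(∑ k, p k * y * p k) (ξ i)‖ ^ 2 ≤ ∑' i, ‖y (ξ i)‖ ^ 2 := by
  obtain ⟨hpA, hpP, hpo, hp1⟩ := hp
  have hstep : ∀ i, ‖(∑ k, p k * y * p k) (ξ i)‖ ^ 2 ≤ ∑ k, ‖y (p k (ξ i))‖ ^ 2 := fun i => by
    rw [sum_apply]
    have e : ∀ k, (p k * y * p k) (ξ i) = p k (y (p k (ξ i))) := fun k => rfl
    simp only [e]
    have h2 : ‖∑ k, p k (y (p k (ξ i)))‖ ^ 2 = ∑ k, ‖p k (y (p k (ξ i)))‖ ^ 2 :=
      norm_sq_sum_orth Finset.univ (fun k _ => hpP k) (fun k _ l _ h => hpo k l h)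
        (fun k => y (p k (ξ i)))
    rw [h2]
    exact Finset.sum_le_sum fun k _ =>
      pow_le_pow_left₀ (norm_nonneg _) (norm_proj_apply_le (hpP k) _) 2
  have hs : ∀ k, Summable fun i => ‖y (p k (ξ i))‖ ^ 2 := fun k => summable_sq_apply hξ.1 (y * p k)
  refine (Summable.tsum_le_tsum hstep (summable_sq_apply hξ.1 _) (summable_sum fun k _ => hs k)).trans ?_
  rw [Summable.tsum_finsetSum fun k _ => hs k]
  -- compute through the functional
  have hval : ∀ k, ((∑' i, ‖y (p k (ξ i))‖ ^ 2 : ℝ) : ℂ) =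
      ∑' i, ⟪ξ i, ((y * y) * p k) (ξ i)⟫_ℂ := fun k => by
    have h1 : ∀ i, ((‖y (p k (ξ i))‖ ^ 2 : ℝ) : ℂ) =
        ⟪ξ i, (p k * ((y * y) * p k)) (ξ i)⟫_ℂ := fun i => by
      rw [← re_inner_sq hys (p k (ξ i)), proj_inner (hpP k)]
      rfl
    rw [Complex.ofReal_tsum, tsum_congr h1,
      hξ.2.2 (p k) (hpA k) _ (mul_mem (mul_mem hy hy) (hA.1 _ (hpA k)))]
    refine tsum_congr fun i => ?_
    rw [mul_assoc (y * y), (hpP k).isIdempotentElem.eq]
  have htot : ((∑ k, ∑' i, ‖y (p k (ξ i))‖ ^ 2 : ℝ) : ℂ) = ((∑' i, ‖y (ξ i)‖ ^ 2 : ℝ) : ℂ) := by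
    rw [Complex.ofReal_sum, Finset.sum_congr rfl fun k _ => hval k,
      ← Summable.tsum_finsetSum fun k _ => summable_inner_apply hξ.1 _, Complex.ofReal_tsum]
    refine tsum_congr fun i => ?_
    rw [← inner_sum, ← sum_apply, ← Finset.mul_sum, hp1, mul_one, re_inner_sq hys]
  exact le_of_eq (Complex.ofReal_inj.1 htot)

/-- So-paving passes from semifinite intermediate algebras to their strong limits. -/
theorem paving_of_approximated {ε : ℝ} {r : ℕ} (hε : 0 < ε) (hr : 0 < r)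
    (hpave : ∀ (N : VonNeumannAlgebra H) (κ : Type u) (ζ : κ → H), IsMASA N A →
      IsFaithfulSemifiniteTrace N ζ → ∀ x ∈ N, IsSelfAdjoint x → SOPavable N A x (ε / 2) r)
    (hA : IsMASA M A) (hξ : IsCentralVectorFamily M A ξ)
    (happ : IsSemifinitelyApproximated M A ξ) {x : H →L[ℂ] H} (hx : x ∈ M)
    (hxs : IsSelfAdjoint x) : SOPavable M A x ε r := by
  classical
  intro F δ hδ
  rcases eq_or_ne x 0 with rfl | hx0
  · refine ⟨fun i => if i = (⟨0, hr⟩ : Fin r) then 1 else 0, 0, 1,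
      ⟨fun i => ?_, fun i => ?_, fun i j hij => ?_, by simp⟩, zero_mem A, IsSelfAdjoint.zero _,
      by simp, one_mem M, IsStarProjection.one _, fun v _ => by simpa using hδ, by simp⟩
    · show (if i = (⟨0, hr⟩ : Fin r) then (1 : H →L[ℂ] H) else 0) ∈ A
      split_ifs
      exacts [one_mem A, zero_mem A]
    · show IsStarProjection (if i = (⟨0, hr⟩ : Fin r) then (1 : H →L[ℂ] H) else 0)
      split_ifs
      exacts [IsStarProjection.one _, IsStarProjection.zero _]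
    · dsimp only
      by_cases h1 : i = ⟨0, hr⟩
      · rw [if_neg (show ¬ j = ⟨0, hr⟩ from fun h2 => hij (h1.trans h2.symm)), mul_zero]
      · rw [if_neg h1, zero_mul]
  have hxn : 0 < ‖x‖ := norm_pos_iff.2 hx0
  obtain ⟨η, hη, hsmall⟩ := exists_fam_small hξ F (half_pos hδ)
  set θ := min (ε / 32) (ε * ‖x‖ / 32) with hθdef
  have hθ : 0 < θ := lt_min (by positivity) (by positivity)
  set ν := θ ^ 2 * η ^ 2 / 4 with hν
  have hνpos : 0 < ν := by positivity
  obtain ⟨N, κ, ζ, hNM, hAN, hζ, x', hx', hxs', hxn', hxx'⟩ := happ x hx hxs ν hνpos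
  have hAN' : IsMASA N A := ⟨hAN, hA.2.1, fun y hy h => hA.2.2 y (hNM y hy) h⟩
  -- finitely many vectors carry the functional
  obtain ⟨s, hs⟩ : ∃ s : Finset ι, ∀ t : Finset ι, Disjoint t s → ∑ i ∈ t, ‖ξ i‖ ^ 2 < ν := by
    obtain ⟨s, hs⟩ := summable_iff_vanishing.1 hξ.1 (Metric.ball 0 ν) (Metric.ball_mem_nhds 0 hνpos)
    exact ⟨s, fun t ht => lt_of_le_of_lt (le_abs_self _) (by simpa using hs t ht)⟩
  set β := min (δ / 2) (Real.sqrt (ν / (s.card + 1))) with hβdef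
  have hβ : 0 < β := lt_min (half_pos hδ) (Real.sqrt_pos.2 (by positivity))
  obtain ⟨p, a, q', hp, ha, has, han, hq', hqP', hqF', hn⟩ :=
    hpave N κ ζ hAN' hζ x' hx' hxs' (F ∪ s.image ξ) β hβ
  have hq'M : q' ∈ M := hNM _ hq'
  -- the exceptional part of the semifinite paving
  have hT1 : ∑' i, ‖(1 - q') (ξ i)‖ ^ 2 ≤ 2 * ν := by
    refine Real.tsum_le_of_sum_le (fun i => sq_nonneg _) fun t => ?_
    rw [← Finset.sum_filter_add_sum_filter_not t (fun i => i ∈ s)]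
    have h1 : ∑ i ∈ t.filter (fun i => i ∈ s), ‖(1 - q') (ξ i)‖ ^ 2 ≤ ν := by
      have h2 : β ^ 2 ≤ ν / (s.card + 1) := by
        refine (pow_le_pow_left₀ hβ.le (min_le_right _ _) 2).trans_eq ?_
        rw [Real.sq_sqrt (by positivity)]
      calc ∑ i ∈ t.filter (fun i => i ∈ s), ‖(1 - q') (ξ i)‖ ^ 2
          ≤ ∑ i ∈ t.filter (fun i => i ∈ s), β ^ 2 := Finset.sum_le_sum fun i hi =>
            pow_le_pow_left₀ (norm_nonneg _) (hqF' _ (Finset.mem_union_right _
              (Finset.mem_image_of_mem ξ (Finset.mem_filter.1 hi).2))).le 2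
        _ ≤ ∑ _i ∈ s, β ^ 2 := Finset.sum_le_sum_of_subset_of_nonneg
              (fun i hi => (Finset.mem_filter.1 hi).2) fun i _ _ => sq_nonneg _
        _ = (s.card : ℝ) * β ^ 2 := by rw [Finset.sum_const, nsmul_eq_mul]
        _ ≤ ν := by
          refine (mul_le_mul_of_nonneg_left h2 (Nat.cast_nonneg _)).trans ?_
          rw [mul_div_assoc', div_le_iff₀ (by positivity)]
          nlinarith
    have h2 : ∑ i ∈ t.filter (fun i => i ∉ s), ‖(1 - q') (ξ i)‖ ^ 2 ≤ ν := by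
      refine (Finset.sum_le_sum fun i _ =>
        pow_le_pow_left₀ (norm_nonneg _) (norm_proj_apply_le hqP'.one_sub (ξ i)) 2).trans ?_
      exact (hs _ (Finset.disjoint_left.2 fun i hi => (Finset.mem_filter.1 hi).2)).le
    linarith
  set y := x - x' with hydef
  have hys : IsSelfAdjoint y := hxs.sub hxs'
  have hyM : y ∈ M := sub_mem hx (hNM _ hx')
  set z := ∑ k, p k * y * p k with hzdef
  have hzs : IsSelfAdjoint z := isSelfAdjoint_sum _ fun k _ => by
    have h := hys.conjugate (p k)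
    rwa [(hp.2.1 k).isSelfAdjoint.star_eq] at h
  have hzM : z ∈ M :=
    sum_mem fun k _ => mul_mem (mul_mem (hA.1 _ (hp.1 k)) hyM) (hA.1 _ (hp.1 k))
  have hT2 : ∑' i, ‖z (ξ i)‖ ^ 2 ≤ ν := (tsum_sq_pinch_le hA hξ hp hyM hys).trans hxx'
  set b := (1 - q') + z * z with hbdef
  have hzz : 0 ≤ z * z := by
    have h := star_mul_self_nonneg z
    rwa [hzs.star_eq] at h
  have hb : 0 ≤ b := add_nonneg hqP'.one_sub.nonneg hzz
  have hbs : IsSelfAdjoint b := IsSelfAdjoint.of_nonneg hb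
  have hbM : b ∈ M := add_mem (sub_mem (one_mem M) hq'M) (mul_mem hzM hzM)
  have hbq : ∀ v, (⟪v, b v⟫_ℂ).re = ‖(1 - q') v‖ ^ 2 + ‖z v‖ ^ 2 := fun v => by
    have h0 : (1 - q') = (1 - q') * (1 - q') := hqP'.one_sub.isIdempotentElem.eq.symm
    rw [hbdef, add_apply, inner_add_right, re_inner_sq hzs, h0,
      re_inner_sq hqP'.one_sub.isSelfAdjoint, ← h0, Complex.add_re, Complex.ofReal_re,
      Complex.ofReal_re]
  set P := cut b (θ ^ 2) with hPdef
  have hP : IsStarProjection P := cut_isStarProjection _ _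
  have hPc : Commute b P := commute_cut hbs _ (Commute.refl b)
  set q := 1 - P with hqdef
  -- the exceptional projection is small
  have hcut : ∀ v, θ ^ 2 * ‖P v‖ ^ 2 ≤ ‖(1 - q') v‖ ^ 2 + ‖z v‖ ^ 2 := fun v => by
    have h1 := re_inner_cut_nonneg hbs (θ ^ 2) (cut_cut_apply b (θ ^ 2) v)
    have h2 : (⟪v, b v⟫_ℂ).re = (⟪P v, b (P v)⟫_ℂ).re + (⟪(1 - P) v, b ((1 - P) v)⟫_ℂ).re := by
      have e : b = P * b * P + (1 - P) * b * (1 - P) := by
        rw [← hPc.eq, mul_assoc b P P, hP.isIdempotentElem.eq, sub_mul, one_mul, ← hPc.eq,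
          mul_sub, mul_one, sub_mul, mul_assoc b P P, hP.isIdempotentElem.eq, sub_self, sub_zero,
          add_sub_cancel]
      conv_lhs => rw [e]
      rw [add_apply, inner_add_right, Complex.add_re, proj_inner hP, proj_inner hP.one_sub]
      rfl
    have h3 := Semi.re_inner_nonneg hb ((1 - P) v)
    rw [← hbq, h2]
    linarith
  have hPT : ∑' i, ‖P (ξ i)‖ ^ 2 ≤ η ^ 2 := by
    have h1 : θ ^ 2 * ∑' i, ‖P (ξ i)‖ ^ 2 ≤ 3 * ν := by
      rw [← tsum_mul_left]
      refine (Summable.tsum_le_tsum (fun i => hcut (ξ i)) ((summable_sq_apply hξ.1 P).mul_left _)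
        ((summable_sq_apply hξ.1 _).add (summable_sq_apply hξ.1 _))).trans ?_
      rw [(summable_sq_apply hξ.1 _).tsum_add (summable_sq_apply hξ.1 _)]
      linarith
    have h2 : 3 * ν ≤ θ ^ 2 * η ^ 2 := by rw [hν]; nlinarith [sq_nonneg (θ * η)]
    exact le_of_mul_le_mul_left (h1.trans h2) (by positivity)
  have hPn : ‖P‖ ≤ 1 := opNorm_le_bound _ zero_le_one fun v => by
    rw [one_mul]; exact norm_proj_apply_le hP v
  have hqp : IsStarProjection q := hP.one_sub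
  refine ⟨p, a, q, hp, ha, has, han.trans hxn', sub_mem (one_mem M) (cut_mem hbs hbM _), hqp,
    fun v hv => ?_, ?_⟩
  · rw [hqdef, sub_sub_cancel]
    exact (hsmall P (cut_mem hbs hbM _) hPn hPT v hv).trans_lt (half_lt_self hδ)
  -- the norm estimate
  have hsmallq : ∀ v, ‖(1 - q') (q v)‖ ≤ θ * ‖v‖ ∧ ‖z (q v)‖ ≤ θ * ‖v‖ := fun v => by
    have h1 := re_inner_one_sub_cut_nonpos hbs (θ ^ 2) (cut_one_sub_apply b (θ ^ 2) v)
    rw [hbq] at h1
    have h2 : θ ^ 2 * ‖(1 - cut b (θ ^ 2)) v‖ ^ 2 ≤ (θ * ‖v‖) ^ 2 := by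
      rw [mul_pow]
      exact mul_le_mul_of_nonneg_left
        (pow_le_pow_left₀ (norm_nonneg _) (norm_proj_apply_le hP.one_sub v) 2) (sq_nonneg _)
    exact ⟨le_of_pow_le_pow_left₀ two_ne_zero (by positivity) (by
        linarith [sq_nonneg ‖z ((1 - cut b (θ ^ 2)) v)‖]),
      le_of_pow_le_pow_left₀ two_ne_zero (by positivity) (by
        linarith [sq_nonneg ‖(1 - q') ((1 - cut b (θ ^ 2)) v)‖])⟩
  have hn1 : ‖(1 - q') * q‖ ≤ θ := opNorm_le_bound _ hθ.le fun v => (hsmallq v).1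
  have hn2 : ‖z * q‖ ≤ θ := opNorm_le_bound _ hθ.le fun v => (hsmallq v).2
  have hn1' : ‖q * (1 - q')‖ ≤ θ := by
    have e : q * (1 - q') = star ((1 - q') * q) := by
      rw [star_mul, hqp.isSelfAdjoint.star_eq, hqP'.one_sub.isSelfAdjoint.star_eq]
    rw [e, norm_star]; exact hn1
  set W := (∑ k, p k * x' * p k) - a with hW
  have hWn : ‖W‖ ≤ 2 * ‖x‖ := by
    refine (norm_sub_le _ _).trans ?_
    have h : ‖∑ k, p k * x' * p k‖ ≤ ‖x'‖ :=
      Pn.norm_T_le (A := A) (e := 1) ⟨r, p, hp.1, hp.2.1, hp.2.2.1, hp.2.2.2⟩ x'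
    linarith [han.trans hxn', h.trans hxn']
  have hqn : ‖q‖ ≤ 1 := opNorm_le_bound _ zero_le_one fun v => by
    rw [one_mul]; exact norm_proj_apply_le hqp v
  have hqn' : ‖q'‖ ≤ 1 := opNorm_le_bound _ zero_le_one fun v => by
    rw [one_mul]; exact norm_proj_apply_le hqP' v
  have hdec : q * ((∑ k, p k * x * p k) - a) * q =
      q * (q' * W * q') * q + (q * (1 - q')) * (W * q) + (q * q') * W * ((1 - q') * q)
        + q * (z * q) := by
    have e : ∑ k, p k * x * p k = (∑ k, p k * x' * p k) + z := by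
      rw [hzdef, ← Finset.sum_add_distrib]
      refine Finset.sum_congr rfl fun k _ => ?_
      rw [hydef]; noncomm_ring
    rw [e, hW]
    noncomm_ring
  rw [hdec]
  have t1 : ‖q * (q' * W * q') * q‖ ≤ ε / 2 * ‖x‖ := by
    refine norm_mul₃_le.trans ?_
    calc ‖q‖ * ‖q' * W * q'‖ * ‖q‖ ≤ 1 * (ε / 2 * ‖x'‖) * 1 := by gcongr
      _ ≤ _ := by rw [one_mul, mul_one]; gcongr
  have t2 : ‖(q * (1 - q')) * (W * q)‖ ≤ θ * (2 * ‖x‖) := by
    refine (norm_mul_le _ _).trans ?_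
    calc ‖q * (1 - q')‖ * ‖W * q‖ ≤ θ * (‖W‖ * ‖q‖) := by gcongr; exact norm_mul_le _ _
      _ ≤ θ * (2 * ‖x‖ * 1) := by gcongr
      _ = _ := by ring
  have t3 : ‖(q * q') * W * ((1 - q') * q)‖ ≤ θ * (2 * ‖x‖) := by
    refine norm_mul₃_le.trans ?_
    calc ‖q * q'‖ * ‖W‖ * ‖(1 - q') * q‖ ≤ (‖q‖ * ‖q'‖) * (2 * ‖x‖) * θ := by
          gcongr; exact norm_mul_le _ _
      _ ≤ (1 * 1) * (2 * ‖x‖) * θ := by gcongr
      _ = _ := by ring
  have t4 : ‖q * (z * q)‖ ≤ θ :=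
    (norm_mul_le _ _).trans ((mul_le_of_le_one_left (norm_nonneg _) hqn).trans hn2)
  have h1 : θ ≤ ε * ‖x‖ / 32 := min_le_right _ _
  have h2 : θ * ‖x‖ ≤ ε / 32 * ‖x‖ := mul_le_mul_of_nonneg_right (min_le_left _ _) hxn.le
  refine (norm_add_le _ _).trans ((add_le_add norm_add₃_le le_rfl).trans ?_)
  nlinarith [mul_pos hε hxn]

end Gen

end Vale.Agent.P078
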