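import Mathlib
import Vale.Agent.P078.Defs

/-!
# Central normal positive functionals
-/

open scoped InnerProductSpace ComplexOrder

namespace Vale.Agent.P078

universe u

variable {H : Type u} [NormedAddCommGroup H] [InnerProductSpace ℂ H] [CompleteSpace H]

/-- `ψ` is a normal positive functional on `M` which commutes with `A`: it is nonnegative at every
`star x * x`, it is continuous at `0` on the unit ball for pointwise convergence on vectors, and
`ψ (a * x) = ψ (x * a)` for `a` in `A`. -/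
def IsCentralNormal (M : VonNeumannAlgebra H) (A : StarSubalgebra ℂ (H →L[ℂ] H))
    (ψ : M.toStarSubalgebra →ₗ[ℂ] ℂ) : Prop :=
  (∀ x, 0 ≤ ψ (star x * x)) ∧
    (∀ ε : ℝ, 0 < ε → ∃ (F : Finset H) (δ : ℝ), 0 < δ ∧ ∀ x : M.toStarSubalgebra,
      ‖(x : H →L[ℂ] H)‖ ≤ 1 → (∀ v ∈ F, ‖(x : H →L[ℂ] H) v‖ ≤ δ) → ‖ψ x‖ ≤ ε) ∧
    ∀ a x : M.toStarSubalgebra, (a : H →L[ℂ] H) ∈ A → ψ (a * x) = ψ (x * a)

/-- There is a faithful central normal positive functional. -/
def HasFaithfulCentralNormal (M : VonNeumannAlgebra H) (A : StarSubalgebra ℂ (H →L[ℂ] H)) :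
    Prop :=
  ∃ ψ, IsCentralNormal M A ψ ∧ ∀ x, ψ (star x * x) = 0 → x = 0

/-- There is no nonzero central normal positive functional. -/
def HasNoCentralNormal (M : VonNeumannAlgebra H) (A : StarSubalgebra ℂ (H →L[ℂ] H)) : Prop :=
  ∀ ψ, IsCentralNormal M A ψ → ψ = 0

end Vale.Agent.P078
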