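import Mathlib

/-!
# The part of a GNS representation continuous along a filter
-/

open scoped InnerProductSpace ComplexOrder Topology
open UniformSpace ContinuousLinearMap Filter

namespace Vale.Agent.P078

universe u

namespace Gen

lemma commute_starProjection_of_invariant {K : Type*} [NormedAddCommGroup K]
    [InnerProductSpace ℂ K] [CompleteSpace K] (U : Submodule ℂ K) [CompleteSpace U]
    {T : K →L[ℂ] K} (h : ∀ v ∈ U, T v ∈ U) (h' : ∀ v ∈ U, star T v ∈ U) :
    Commute T U.starProjection := by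
  have key : ∀ z : K →L[ℂ] K, (∀ v ∈ U, z v ∈ U) →
      U.starProjection * z * U.starProjection = z * U.starProjection := fun z hz =>
    ext fun v => Submodule.starProjection_eq_self_iff.2
      (hz _ (Submodule.starProjection_apply_mem U v))
  have hU : star U.starProjection = U.starProjection :=
    (isStarProjection_starProjection (U := U)).isSelfAdjoint.star_eq
  have h1 := congrArg star (key _ h')
  simp only [star_mul, star_star, hU] at h1
  rw [← mul_assoc, key _ h] at h1
  exact h1

variable {B : Type u} [CStarAlgebra B] [PartialOrder B] [StarOrderedRing B] (φ : B →ₚ[ℂ] ℂ)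

/-- The vector of an element in the GNS space. -/
noncomputable def gvec (x : B) : φ.GNS := (φ.toPreGNS x : Completion φ.PreGNS)

lemma inner_gvec (x y : B) : ⟪gvec φ x, gvec φ y⟫_ℂ = φ (star x * y) := by
  simp [gvec, Completion.inner_coe, PositiveLinearMap.preGNS_inner_def]

lemma norm_sq_gvec (x : B) : ‖gvec φ x‖ ^ 2 = (φ (star x * x)).re := by
  rw [← inner_self_eq_norm_sq (𝕜 := ℂ), inner_gvec]
  rfl

/-- The representation. -/
noncomputable def rep (b : B) : φ.GNS →L[ℂ] φ.GNS := φ.gnsNonUnitalStarAlgHom b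

lemma rep_gvec (b x : B) : rep φ b (gvec φ x) = gvec φ (b * x) := by
  simp [rep, gvec]

lemma rep_star (b : B) : star (rep φ b) = rep φ (star b) :=
  (map_star φ.gnsNonUnitalStarAlgHom b).symm

lemma rep_mul (b c : B) : rep φ (b * c) = rep φ b * rep φ c :=
  map_mul φ.gnsNonUnitalStarAlgHom b c

lemma rep_add (b c : B) : rep φ (b + c) = rep φ b + rep φ c :=
  map_add φ.gnsNonUnitalStarAlgHom b c

lemma rep_smul (z : ℂ) (b : B) : rep φ (z • b) = z • rep φ b :=
  map_smul φ.gnsNonUnitalStarAlgHom z b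

lemma norm_rep_le (b : B) : ‖rep φ b‖ ≤ ‖b‖ :=
  NonUnitalStarAlgHom.norm_apply_le φ.gnsNonUnitalStarAlgHom b

lemma continuous_rep : Continuous (rep φ) :=
  AddMonoidHomClass.continuous_of_bound φ.gnsNonUnitalStarAlgHom 1 fun b => by
    rw [one_mul]; exact NonUnitalStarAlgHom.norm_apply_le φ.gnsNonUnitalStarAlgHom b

lemma dense_gvec : DenseRange (gvec φ) :=
  Completion.denseRange_coe.comp φ.toPreGNS.surjective.denseRange (Completion.continuous_coe _)

variable (l : Filter B)

/-- Vectors of the GNS space at which the representation is continuous along `l`. -/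
noncomputable def normalSub : Submodule ℂ φ.GNS where
  carrier := {η | Tendsto (fun x => rep φ x η) l (𝓝 0)}
  zero_mem' := by simp only [Set.mem_ofPred_eq, map_zero]; exact tendsto_const_nhds
  add_mem' := fun {η θ} hη hθ => by
    have := hη.add hθ
    simp only [add_zero] at this
    exact this.congr fun x => (map_add (rep φ x) η θ).symm
  smul_mem' := fun c η hη => by
    have := hη.const_smul c
    rw [smul_zero] at this
    exact this.congr fun x => (map_smul (rep φ x) c η).symm

lemma mem_normalSub {η : φ.GNS} :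
    η ∈ normalSub φ l ↔ Tendsto (fun x => rep φ x η) l (𝓝 0) := Iff.rfl

/-- The functional of a vector. -/
noncomputable def vecFun (η : φ.GNS) : B →ₗ[ℂ] ℂ where
  toFun x := ⟪η, rep φ x η⟫_ℂ
  map_add' x y := by rw [rep_add, add_apply, inner_add_right]
  map_smul' c x := by
    rw [rep_smul, smul_apply, inner_smul_right]; rfl

lemma vecFun_apply (η : φ.GNS) (x : B) : vecFun φ η x = ⟪η, rep φ x η⟫_ℂ := rfl

variable {φ l}

lemma isClosed_normalSub (hl : ∀ᶠ x in l, ‖x‖ ≤ 1) :
    IsClosed (normalSub φ l : Set φ.GNS) := by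
  rw [← closure_subset_iff_isClosed]
  intro η hη
  refine NormedAddGroup.tendsto_nhds_zero.2 fun ε hε => ?_
  obtain ⟨θ, hθ, hd⟩ := Metric.mem_closure_iff.1 hη (ε / 2) (half_pos hε)
  filter_upwards [hl, NormedAddGroup.tendsto_nhds_zero.1 hθ (ε / 2) (half_pos hε)] with x hx h1
  have h2 : ‖rep φ x (η - θ)‖ ≤ ε / 2 :=
    ((rep φ x).le_opNorm _).trans ((mul_le_of_le_one_left (norm_nonneg _)
      ((norm_rep_le φ x).trans hx)).trans (by rw [← dist_eq_norm]; exact hd.le))
  have h3 : rep φ x η = rep φ x (η - θ) + rep φ x θ := by rw [map_sub, sub_add_cancel]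
  rw [h3]
  linarith [norm_add_le (rep φ x (η - θ)) (rep φ x θ)]

lemma rep_mem_normalSub
    (hmul : ∀ b : B, Tendsto (fun x => ((‖b‖ + 1 : ℝ) : ℂ)⁻¹ • (x * b)) l l) (b : B) {η : φ.GNS}
    (hη : η ∈ normalSub φ l) : rep φ b η ∈ normalSub φ l := by
  have hc : ((‖b‖ + 1 : ℝ) : ℂ) ≠ 0 := Complex.ofReal_ne_zero.2 (by positivity)
  have h : Tendsto (fun x => ((‖b‖ + 1 : ℝ) : ℂ) •
      rep φ (((‖b‖ + 1 : ℝ) : ℂ)⁻¹ • (x * b)) η) l (𝓝 (((‖b‖ + 1 : ℝ) : ℂ) • (0 : φ.GNS))) :=
    Tendsto.const_smul (Tendsto.comp hη (hmul b)) _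
  rw [smul_zero] at h
  refine h.congr fun x => ?_
  rw [rep_smul, smul_apply, smul_smul, mul_inv_cancel₀ hc, one_smul, rep_mul]
  rfl

lemma central_mul_mul {g : B} (hg : IsStarProjection g)
    (hcen : ∀ x, φ (g * x) = φ (x * g)) (x : B) :
    (φ (star (x * g) * (x * g))).re ≤ (φ (star x * x)).re := by
  set y := star x * x with hy
  have e1 : star (x * g) * (x * g) = g * y * g := by
    rw [hy, star_mul, hg.isSelfAdjoint.star_eq]; noncomm_ring
  have e3 : φ (g * y * g) = φ (g * y) := by
    rw [← hcen (g * y), ← mul_assoc, hg.isIdempotentElem.eq]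
  have e2 : φ y = φ (g * y * g) + φ ((1 - g) * y * (1 - g)) := by
    have h : (1 - g) * y * (1 - g) = y - g * y - y * g + g * y * g := by noncomm_ring
    rw [h, map_add, map_sub, map_sub, ← hcen y, e3]
    ring
  have h0 : 0 ≤ φ ((1 - g) * y * (1 - g)) := by
    have : (1 - g) * y * (1 - g) = star (x * (1 - g)) * (x * (1 - g)) := by
      rw [hy, star_mul, star_sub, star_one, hg.isSelfAdjoint.star_eq]; noncomm_ring
    rw [this]
    exact φ.map_nonneg (star_mul_self_nonneg _)
  rw [e1, e2, Complex.add_re]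
  linarith [(Complex.nonneg_iff.1 h0).1]

/-- Right multiplication by a projection commuting with `φ`, before completion. -/
noncomputable def rprojPre {g : B} (hg : IsStarProjection g)
    (hcen : ∀ x, φ (g * x) = φ (x * g)) : φ.PreGNS →L[ℂ] φ.PreGNS :=
  LinearMap.mkContinuous
    { toFun := fun x => φ.toPreGNS (φ.ofPreGNS x * g)
      map_add' := fun x y => by rw [map_add, add_mul, map_add]
      map_smul' := fun c x => by simp }
    1 fun x => by
      rw [one_mul]
      refine le_of_pow_le_pow_left₀ two_ne_zero (norm_nonneg _) ?_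
      have h1 := congrArg Complex.re (φ.preGNS_norm_sq x)
      have h2 := congrArg Complex.re (φ.preGNS_norm_sq (φ.toPreGNS (φ.ofPreGNS x * g)))
      simp only [← Complex.ofReal_pow, Complex.ofReal_re, PositiveLinearMap.ofPreGNS_toPreGNS]
        at h1 h2
      show ‖φ.toPreGNS (φ.ofPreGNS x * g)‖ ^ 2 ≤ ‖x‖ ^ 2
      rw [h1, h2]
      exact central_mul_mul hg hcen _

/-- Right multiplication by a projection commuting with `φ`. -/
noncomputable def rproj {g : B} (hg : IsStarProjection g)
    (hcen : ∀ x, φ (g * x) = φ (x * g)) : φ.GNS →L[ℂ] φ.GNS :=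
  (rprojPre hg hcen).completion

lemma rproj_gvec {g : B} (hg : IsStarProjection g) (hcen : ∀ x, φ (g * x) = φ (x * g)) (x : B) :
    rproj hg hcen (gvec φ x) = gvec φ (x * g) := by
  simp [rproj, rprojPre, gvec]

lemma rproj_symm {g : B} (hg : IsStarProjection g) (hcen : ∀ x, φ (g * x) = φ (x * g))
    (η θ : φ.GNS) : ⟪rproj hg hcen η, θ⟫_ℂ = ⟪η, rproj hg hcen θ⟫_ℂ := by
  refine (dense_gvec φ).induction_on η (isClosed_eq (by fun_prop) (by fun_prop)) fun x => ?_
  refine (dense_gvec φ).induction_on θ (isClosed_eq (by fun_prop) (by fun_prop)) fun y => ?_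
  rw [rproj_gvec, rproj_gvec, inner_gvec, inner_gvec, star_mul, hg.isSelfAdjoint.star_eq,
    mul_assoc, hcen, mul_assoc]

lemma rproj_comm {g : B} (hg : IsStarProjection g) (hcen : ∀ x, φ (g * x) = φ (x * g)) (b : B)
    (η : φ.GNS) : rep φ b (rproj hg hcen η) = rproj hg hcen (rep φ b η) := by
  refine (dense_gvec φ).induction_on η (isClosed_eq (by fun_prop) (by fun_prop)) fun x => ?_
  rw [rproj_gvec, rep_gvec, rep_gvec, rproj_gvec, mul_assoc]

lemma rproj_mem_normalSub {g : B} (hg : IsStarProjection g)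
    (hcen : ∀ x, φ (g * x) = φ (x * g)) {η : φ.GNS} (hη : η ∈ normalSub φ l) :
    rproj hg hcen η ∈ normalSub φ l := by
  have h := ((rproj hg hcen).continuous.tendsto (0 : φ.GNS)).comp hη
  rw [map_zero] at h
  exact h.congr fun x => (rproj_comm hg hcen x η).symm

variable [CompleteSpace (normalSub φ l)]

variable (φ l) in
/-- The normal part of the cyclic vector. -/
noncomputable def nvec : φ.GNS := (normalSub φ l).starProjection (gvec φ 1)

lemma rep_nvec
    (hmul : ∀ b : B, Tendsto (fun x => ((‖b‖ + 1 : ℝ) : ℂ)⁻¹ • (x * b)) l l) (b : B) :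
    rep φ b (nvec φ l) = (normalSub φ l).starProjection (gvec φ b) := by
  have hc : Commute (rep φ b) (normalSub φ l).starProjection :=
    commute_starProjection_of_invariant _ (fun _ h => rep_mem_normalSub hmul b h) (by
      rw [rep_star]; exact fun _ h => rep_mem_normalSub hmul (star b) h)
  show (rep φ b * (normalSub φ l).starProjection) (gvec φ 1) = _
  rw [hc.eq]
  show (normalSub φ l).starProjection (rep φ b (gvec φ 1)) = _
  rw [rep_gvec, mul_one]

lemma vecFun_central
    (hmul : ∀ b : B, Tendsto (fun x => ((‖b‖ + 1 : ℝ) : ℂ)⁻¹ • (x * b)) l l) {g : B}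
    (hg : IsStarProjection g) (hcen : ∀ x, φ (g * x) = φ (x * g)) (x : B) :
    vecFun φ (nvec φ l) (g * x) = vecFun φ (nvec φ l) (x * g) := by
  set η := nvec φ l with hη_def
  set R := rproj hg hcen with hR_def
  have hRs : star R = R := isSelfAdjoint_iff_isSymmetric.2 (rproj_symm hg hcen)
  have hR : Commute R (normalSub φ l).starProjection :=
    commute_starProjection_of_invariant _ (fun _ h => rproj_mem_normalSub hg hcen h) (by
      rw [hRs]; exact fun _ h => rproj_mem_normalSub hg hcen h)
  have hη : rep φ g η = R η := by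
    rw [hη_def, rep_nvec hmul]
    show _ = (R * (normalSub φ l).starProjection) (gvec φ 1)
    rw [hR.eq]
    show _ = (normalSub φ l).starProjection (R (gvec φ 1))
    rw [hR_def, rproj_gvec, one_mul]
  rw [vecFun_apply, vecFun_apply, rep_mul, rep_mul]
  show ⟪η, rep φ g (rep φ x η)⟫_ℂ = ⟪η, rep φ x (rep φ g η)⟫_ℂ
  rw [hη, rproj_comm, ← adjoint_inner_left, ← star_eq_adjoint, rep_star, hg.isSelfAdjoint.star_eq,
    hη]
  exact rproj_symm hg hcen η (rep φ x η)

lemma vecFun_nonneg (η : φ.GNS) (x : B) : 0 ≤ vecFun φ η (star x * x) := by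
  rw [vecFun_apply, rep_mul, ← rep_star]
  show 0 ≤ ⟪η, star (rep φ x) (rep φ x η)⟫_ℂ
  rw [star_eq_adjoint, adjoint_inner_right, inner_self_eq_norm_sq_to_K]
  rw [Complex.nonneg_iff]
  simp [← Complex.ofReal_pow]

lemma vecFun_tendsto (η : φ.GNS) (hη : η ∈ normalSub φ l) :
    Tendsto (fun x => vecFun φ η x) l (𝓝 0) := by
  simp only [vecFun_apply]
  have h := Tendsto.inner (tendsto_const_nhds (x := η)) hη (𝕜 := ℂ)
  rwa [inner_zero_right] at h

lemma continuous_vecFun (η : φ.GNS) : Continuous (fun x => vecFun φ η x) := by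
  simp only [vecFun_apply]
  exact continuous_const.inner
    (((ContinuousLinearMap.apply ℂ φ.GNS η).continuous).comp (continuous_rep φ))

/-- If the normal part of the cyclic vector vanishes, then `φ` vanishes on the projections under
which it is continuous along `l`. -/
lemma eq_zero_of_nvec (h : nvec φ l = 0) {P : B} (hP : IsStarProjection P)
    (hdom : gvec φ P ∈ normalSub φ l) : φ P = 0 := by
  have h5 : ⟪gvec φ P, gvec φ 1⟫_ℂ = 0 := by
    rw [← Submodule.starProjection_eq_self_iff.2 hdom, Submodule.inner_starProjection_left_eq_right]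
    show ⟪gvec φ P, nvec φ l⟫_ℂ = 0
    rw [h, inner_zero_right]
  rwa [inner_gvec, mul_one, hP.isSelfAdjoint.star_eq] at h5

end Gen

end Vale.Agent.P078
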