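import Mathlib
import Vale.Agent.P078.FinalVN
import Vale.Agent.P078.Gen.Defs
import Vale.Agent.P078.Gen.Approx
import Vale.Agent.P078.Gen.GNS

/-!
# Functionals commuting with the projections of a MASA, and their normal parts
-/

open scoped InnerProductSpace ComplexOrder Topology
open Filter

namespace Vale.Agent.P078

universe u

variable {H : Type u} [NormedAddCommGroup H] [InnerProductSpace ℂ H] [CompleteSpace H]

namespace Gen

variable (M : VonNeumannAlgebra H)

/-- Elements of the unit ball which are small at finitely many vectors. -/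
def ballNhd (i : Finset H × {δ : ℝ // 0 < δ}) : Set M.toStarSubalgebra :=
  {x | ‖(x : H →L[ℂ] H)‖ ≤ 1 ∧ ∀ v ∈ i.1, ‖(x : H →L[ℂ] H) v‖ ≤ i.2}

/-- Strong convergence to `0` inside the unit ball. -/
def sFilter : Filter M.toStarSubalgebra := ⨅ i, 𝓟 (ballNhd M i)

lemma sFilter_hasBasis : (sFilter M).HasBasis (fun _ => True) (ballNhd M) := by
  classical
  have : Nonempty (Finset H × {δ : ℝ // 0 < δ}) := ⟨(∅, ⟨1, one_pos⟩)⟩
  refine hasBasis_iInf_principal fun i j => ⟨(i.1 ∪ j.1, ⟨min i.2.1 j.2.1, lt_min i.2.2 j.2.2⟩),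
    fun x hx => ⟨hx.1, fun v hv => ?_⟩, fun x hx => ⟨hx.1, fun v hv => ?_⟩⟩
  · exact (hx.2 v (Finset.mem_union_left _ hv)).trans (min_le_left _ _)
  · exact (hx.2 v (Finset.mem_union_right _ hv)).trans (min_le_right _ _)

lemma eventually_sFilter {P : M.toStarSubalgebra → Prop} :
    (∀ᶠ x in sFilter M, P x) ↔ ∃ (F : Finset H) (δ : ℝ), 0 < δ ∧ ∀ x : M.toStarSubalgebra,
      ‖(x : H →L[ℂ] H)‖ ≤ 1 → (∀ v ∈ F, ‖(x : H →L[ℂ] H) v‖ ≤ δ) → P x := by
  rw [(sFilter_hasBasis M).eventually_iff]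
  constructor
  · rintro ⟨i, -, h⟩
    exact ⟨i.1, i.2, i.2.2, fun x h1 h2 => h ⟨h1, h2⟩⟩
  · rintro ⟨F, δ, hδ, h⟩
    exact ⟨(F, ⟨δ, hδ⟩), trivial, fun x hx => h x hx.1 hx.2⟩

lemma eventually_ball : ∀ᶠ x in sFilter M, ‖x‖ ≤ 1 :=
  (eventually_sFilter M).2 ⟨∅, 1, one_pos, fun _ h _ => h⟩

lemma tendsto_mul_right (b : M.toStarSubalgebra) :
    Tendsto (fun x => ((‖b‖ + 1 : ℝ) : ℂ)⁻¹ • (x * b)) (sFilter M) (sFilter M) := by
  classical
  refine ((sFilter_hasBasis M).tendsto_iff (sFilter_hasBasis M)).2 fun i _ =>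
    ⟨(i.1.image fun v => (b : H →L[ℂ] H) v, i.2), trivial, fun x hx => ?_⟩
  have hc : (0 : ℝ) < ‖b‖ + 1 := by positivity
  refine ⟨?_, fun v hv => ?_⟩
  · show ‖((‖b‖ + 1 : ℝ) : ℂ)⁻¹ • ((x : H →L[ℂ] H) * (b : H →L[ℂ] H))‖ ≤ 1
    rw [norm_smul, norm_inv, Complex.norm_real, Real.norm_of_nonneg hc.le, inv_mul_le_iff₀ hc,
      mul_one]
    exact (norm_mul_le _ _).trans ((mul_le_of_le_one_left (norm_nonneg _) hx.1).trans
      (le_add_of_nonneg_right zero_le_one))
  · show ‖((‖b‖ + 1 : ℝ) : ℂ)⁻¹ • (x : H →L[ℂ] H) ((b : H →L[ℂ] H) v)‖ ≤ i.2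
    rw [norm_smul, norm_inv, Complex.norm_real, Real.norm_of_nonneg hc.le, inv_mul_le_iff₀ hc]
    refine (hx.2 _ (Finset.mem_image_of_mem _ hv)).trans ?_
    nlinarith [norm_nonneg b, i.2.2]

variable {M} {A : StarSubalgebra ℂ (H →L[ℂ] H)}

/-- Commutation with projections of the MASA extends to the whole MASA. -/
lemma central_of_proj (hA : IsMASA M A) (ψ : M.toStarSubalgebra →ₗ[ℂ] ℂ) (hψ : Continuous ψ)
    (h : ∀ g x : M.toStarSubalgebra, (g : H →L[ℂ] H) ∈ A → IsStarProjection g →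
      ψ (g * x) = ψ (x * g)) (a x : M.toStarSubalgebra) (ha : (a : H →L[ℂ] H) ∈ A) :
    ψ (a * x) = ψ (x * a) := by
  let S' : Submodule ℂ M.toStarSubalgebra :=
    { carrier := {b | ∀ y, ψ (b * y) = ψ (y * b)}
      zero_mem' := fun y => by simp
      add_mem' := fun {b c} hb hc y => by rw [add_mul, mul_add, map_add, map_add, hb y, hc y]
      smul_mem' := fun c b hb y => by rw [smul_mul_assoc, mul_smul_comm, map_smul, map_smul, hb y] }
  have hS' : IsClosed (S' : Set M.toStarSubalgebra) := by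
    have : (S' : Set M.toStarSubalgebra) = ⋂ y, {b | ψ (b * y) = ψ (y * b)} := by
      ext b; simp [S']
    rw [this]
    exact isClosed_iInter fun y => isClosed_eq (hψ.comp (by fun_prop)) (hψ.comp (by fun_prop))
  let incl : M.toStarSubalgebra →ₗ[ℂ] (H →L[ℂ] H) :=
    M.toStarSubalgebra.subtype.toAlgHom.toLinearMap
  have hS : IsClosed ((S'.map incl : Submodule ℂ (H →L[ℂ] H)) : Set (H →L[ℂ] H)) :=
    (isClosed_vonNeumann M).isClosedEmbedding_subtypeVal.isClosedMap _ hS'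
  obtain ⟨b, hb, hba⟩ := mem_of_proj_mem hA (S'.map incl) hS (fun e heA he => by
    have hep : IsStarProjection (⟨e, hA.1 e heA⟩ : M.toStarSubalgebra) :=
      ⟨Subtype.ext he.isIdempotentElem.eq, Subtype.ext he.isSelfAdjoint.star_eq⟩
    exact ⟨⟨e, hA.1 e heA⟩, fun y => h _ y heA hep, rfl⟩) ha
  rw [show a = b from Subtype.ext hba.symm]
  exact hb x

/-- If no nonzero central normal functional lives on `e`, then `φ` vanishes on every projection
under which it is strongly continuous. -/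
theorem eq_zero_of_dominated (φ : M.toStarSubalgebra →ₚ[ℂ] ℂ) (hA : IsMASA M A)
    (hcen : ∀ g x : M.toStarSubalgebra, (g : H →L[ℂ] H) ∈ A → IsStarProjection g →
      φ (g * x) = φ (x * g))
    {e : M.toStarSubalgebra} (he : IsStarProjection e) (hφe : φ (1 - e) = 0)
    (hsing : ∀ ψ, IsCentralNormal M A ψ → ψ (1 - e) = 0 → ψ 1 = 0)
    {P : M.toStarSubalgebra} (hP : IsStarProjection P)
    (hdom : Tendsto (fun x => (φ (star (x * P) * (x * P))).re) (sFilter M) (𝓝 0)) :
    φ P = 0 := by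
  have : CompleteSpace (normalSub φ (sFilter M)) :=
    (isClosed_normalSub (eventually_ball M)).completeSpace_coe
  have hmul := tendsto_mul_right M
  have hmem : nvec φ (sFilter M) ∈ normalSub φ (sFilter M) :=
    Submodule.starProjection_apply_mem _ _
  set η := nvec φ (sFilter M) with hη
  have hcn : IsCentralNormal M A (vecFun φ η) := by
    refine ⟨fun x => vecFun_nonneg η x, fun ε hε => ?_,
      fun a x ha => central_of_proj hA _ (continuous_vecFun η)
        (fun g y hgA hg => vecFun_central hmul hg (fun z => hcen g z hgA hg) y) a x ha⟩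
    have h := NormedAddGroup.tendsto_nhds_zero.1 (vecFun_tendsto η hmem) ε hε
    obtain ⟨F, δ, hδ, h'⟩ := (eventually_sFilter M).1 h
    exact ⟨F, δ, hδ, fun x hx hs => (h' x hx hs).le⟩
  have h0 : gvec φ (1 - e) = 0 := by
    have h := norm_sq_gvec φ (1 - e)
    rw [he.one_sub.isSelfAdjoint.star_eq, he.one_sub.isIdempotentElem.eq, hφe, Complex.zero_re] at h
    simpa using h
  have h1 : vecFun φ η (1 - e) = 0 := by
    rw [vecFun_apply, hη, rep_nvec hmul, h0, map_zero, inner_zero_right]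
  have h2 := hsing _ hcn h1
  rw [vecFun_apply, hη, rep_nvec hmul] at h2
  have h3 : nvec φ (sFilter M) = 0 := inner_self_eq_zero.1 h2
  refine eq_zero_of_nvec h3 hP ?_
  rw [mem_normalSub]
  refine tendsto_zero_iff_norm_tendsto_zero.2 ?_
  have := hdom.sqrt
  rw [Real.sqrt_zero] at this
  refine this.congr fun x => ?_
  rw [rep_gvec, ← norm_sq_gvec, Real.sqrt_sq (norm_nonneg _)]

end Gen

end Vale.Agent.P078
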