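import Mathlib
import Vale.Agent.P078.Semi.Spectral

/-!
# Maximal orthogonal families of projections in a von Neumann algebra
-/

open scoped InnerProductSpace
open ContinuousLinearMap

namespace Vale.Agent.P078

universe u

variable {H : Type u} [NormedAddCommGroup H] [InnerProductSpace ℂ H] [CompleteSpace H]

namespace Gen

open Semi

/-- A set of pairwise orthogonal projections below `p` in `M` satisfying `G`. -/
def OrthFam (M : VonNeumannAlgebra H) (p : H →L[ℂ] H) (G : (H →L[ℂ] H) → Prop)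
    (S : Set (H →L[ℂ] H)) : Prop :=
  (∀ r ∈ S, r ∈ M ∧ IsStarProjection r ∧ r * p = r ∧ G r ∧ r ≠ 0) ∧
    ∀ r ∈ S, ∀ r' ∈ S, r ≠ r' → r * r' = 0

variable {M : VonNeumannAlgebra H} {p : H →L[ℂ] H} {G : (H →L[ℂ] H) → Prop}
  {S : Set (H →L[ℂ] H)}

lemma OrthFam.sum_proj (hS : OrthFam M p G S) {t : Finset (H →L[ℂ] H)} (ht : (t : Set _) ⊆ S) :
    IsStarProjection (∑ r ∈ t, r) ∧ (∑ r ∈ t, r) ∈ M ∧ (∑ r ∈ t, r) * p = ∑ r ∈ t, r ∧
      ∀ r ∈ t, (∑ r' ∈ t, r') * r = r := by
  have h1 : ∀ r ∈ t, (∑ r' ∈ t, r') * r = r := fun r hr => by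
    rw [Finset.sum_mul, Finset.sum_eq_single r]
    · exact (hS.1 r (ht hr)).2.1.isIdempotentElem.eq
    · exact fun r' hr' hne => hS.2 r' (ht hr') r (ht hr) hne
    · exact fun h => absurd hr h
  refine ⟨⟨?_, ?_⟩, sum_mem fun r hr => (hS.1 r (ht hr)).1, ?_, h1⟩
  · show (∑ r ∈ t, r) * (∑ r ∈ t, r) = ∑ r ∈ t, r
    rw [Finset.mul_sum]
    exact Finset.sum_congr rfl h1
  · show star _ = _
    rw [star_sum]
    exact Finset.sum_congr rfl fun r hr => (hS.1 r (ht hr)).2.1.isSelfAdjoint.star_eq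
  · rw [Finset.sum_mul]
    exact Finset.sum_congr rfl fun r hr => (hS.1 r (ht hr)).2.2.1

lemma OrthFam.sum_mul_sum (hS : OrthFam M p G S) {t t' : Finset (H →L[ℂ] H)}
    (ht : (t : Set _) ⊆ S) (hsub : t' ⊆ t) :
    (∑ r ∈ t, r) * (∑ r ∈ t', r) = ∑ r ∈ t', r := by
  rw [Finset.mul_sum]
  exact Finset.sum_congr rfl fun r hr => (hS.sum_proj ht).2.2.2 r (hsub hr)

/-- The vectors fixed by a finite sum of members of the family. -/
def OrthFam.finSub (hS : OrthFam M p G S) : Submodule ℂ H where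
  carrier := {v | ∃ t : Finset (H →L[ℂ] H), (t : Set _) ⊆ S ∧ (∑ r ∈ t, r) v = v}
  zero_mem' := ⟨∅, by simp, by simp⟩
  add_mem' := by
    classical
    rintro v w ⟨t, ht, hv⟩ ⟨t', ht', hw⟩
    have hu : ((t ∪ t' : Finset (H →L[ℂ] H)) : Set (H →L[ℂ] H)) ⊆ S := by
      rw [Finset.coe_union]; exact Set.union_subset ht ht'
    refine ⟨t ∪ t', hu, ?_⟩
    have h1 := congrArg (fun T : H →L[ℂ] H => T v) (hS.sum_mul_sum hu Finset.subset_union_left)
    have h2 := congrArg (fun T : H →L[ℂ] H => T w) (hS.sum_mul_sum hu Finset.subset_union_right)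
    rw [← apply_mul, hv] at h1
    rw [← apply_mul, hw] at h2
    rw [map_add, h1, h2]
  smul_mem' := by
    rintro c v ⟨t, ht, hv⟩
    exact ⟨t, ht, by rw [map_smul, hv]⟩

/-- The projection generated by the family. -/
noncomputable def OrthFam.sup (hS : OrthFam M p G S) : H →L[ℂ] H :=
  hS.finSub.topologicalClosure.starProjection

lemma OrthFam.sup_proj (hS : OrthFam M p G S) : IsStarProjection hS.sup :=
  isStarProjection_starProjection

lemma OrthFam.sup_fix (hS : OrthFam M p G S) {v : H} (hv : v ∈ hS.finSub.topologicalClosure) :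
    hS.sup v = v :=
  Submodule.starProjection_eq_self_iff.2 hv

lemma OrthFam.sup_mul_of_mem (hS : OrthFam M p G S) {r : H →L[ℂ] H} (hr : r ∈ S) :
    hS.sup * r = r := by
  ext v
  refine hS.sup_fix (Submodule.le_topologicalClosure _ ⟨{r}, by simpa using hr, ?_⟩)
  rw [Finset.sum_singleton]
  exact congrArg (fun T : H →L[ℂ] H => T v) (hS.1 r hr).2.1.isIdempotentElem.eq

lemma OrthFam.sup_mem (hS : OrthFam M p G S) : hS.sup ∈ M := by
  rw [VonNeumannAlgebra.IsStarProjection.mem_iff hS.sup_proj]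
  intro y hy
  rw [OrthFam.sup, Submodule.range_starProjection, Module.End.mem_invtSubmodule]
  intro v hv
  have hmap : Set.MapsTo y (hS.finSub : Set H) (hS.finSub : Set H) := by
    rintro w ⟨t, ht, hw⟩
    refine ⟨t, ht, ?_⟩
    have h := congrArg (fun T : H →L[ℂ] H => T w)
      (VonNeumannAlgebra.mem_commutant_iff.1 hy _ (hS.sum_proj ht).2.1)
    simpa [hw] using h
  rw [← SetLike.mem_coe, Submodule.topologicalClosure_coe] at hv
  show y v ∈ hS.finSub.topologicalClosure
  rw [← SetLike.mem_coe, Submodule.topologicalClosure_coe]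
  exact hmap.closure y.continuous hv

lemma OrthFam.mul_sup (hS : OrthFam M p G S) (hp : IsStarProjection p) :
    p * hS.sup = hS.sup := by
  ext v
  show p (hS.sup v) = hS.sup v
  have hle : ∀ w ∈ hS.finSub, p w = w := by
    rintro w ⟨t, ht, hw⟩
    have h := congrArg star (hS.sum_proj ht).2.2.1
    rw [star_mul, hp.isSelfAdjoint.star_eq, (hS.sum_proj ht).1.isSelfAdjoint.star_eq] at h
    have := congrArg (fun T : H →L[ℂ] H => T w) h
    simpa [hw] using this
  have hmem : hS.sup v ∈ hS.finSub.topologicalClosure :=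
    Submodule.starProjection_apply_mem _ _
  rw [← SetLike.mem_coe, Submodule.topologicalClosure_coe] at hmem
  exact closure_minimal hle (isClosed_eq p.continuous continuous_id) hmem

/-- A maximal orthogonal family below `p`, its supremum, and its finite approximations. -/
theorem exists_maximal_orth (M : VonNeumannAlgebra H) {p : H →L[ℂ] H} (hp : IsStarProjection p)
    (G : (H →L[ℂ] H) → Prop) :
    ∃ K ∈ M, IsStarProjection K ∧ K * p = K ∧
      (∀ r ∈ M, IsStarProjection r → r * p = r → r * K = 0 → G r → r = 0) ∧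
      ∀ (F : Finset H) (δ : ℝ), 0 < δ → ∃ t : Finset (H →L[ℂ] H),
        (∀ r ∈ t, r ∈ M ∧ IsStarProjection r ∧ r * p = r ∧ G r) ∧
        (∀ a ∈ t, ∀ b ∈ t, a ≠ b → a * b = 0) ∧
        IsStarProjection (∑ r ∈ t, r) ∧ K * (∑ r ∈ t, r) = ∑ r ∈ t, r ∧
        ∀ v ∈ F, ‖(K - ∑ r ∈ t, r) v‖ ≤ δ := by
  classical
  obtain ⟨S, hS⟩ := zorn_subset {S : Set (H →L[ℂ] H) | OrthFam M p G S} fun c hc hchain => by
    refine ⟨⋃₀ c, ⟨fun r ⟨s, hs, hr⟩ => (hc hs).1 r hr, ?_⟩, fun s hs => Set.subset_sUnion_of_mem hs⟩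
    rintro r ⟨s, hs, hr⟩ r' ⟨s', hs', hr'⟩ hne
    rcases hchain.total hs hs' with h | h
    · exact (hc hs').2 r (h hr) r' hr' hne
    · exact (hc hs).2 r hr r' (h hr') hne
  have hfam : OrthFam M p G S := hS.prop
  have hKp : hfam.sup * p = hfam.sup := by
    have h := congrArg star (hfam.mul_sup hp)
    rwa [star_mul, hfam.sup_proj.isSelfAdjoint.star_eq, hp.isSelfAdjoint.star_eq] at h
  refine ⟨hfam.sup, hfam.sup_mem, hfam.sup_proj, hKp, fun r hrM hr hrp hrK hGr => ?_,
    fun F δ hδ => ?_⟩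
  · by_contra hr0
    have hrS : ∀ s ∈ S, r * s = 0 := fun s hs => by
      rw [← hfam.sup_mul_of_mem hs, ← mul_assoc, hrK, zero_mul]
    have hSr : ∀ s ∈ S, s * r = 0 := fun s hs => by
      have h := congrArg star (hrS s hs)
      rwa [star_mul, (hfam.1 s hs).2.1.isSelfAdjoint.star_eq, hr.isSelfAdjoint.star_eq,
        star_zero] at h
    have hnot : r ∉ S := fun h => hr0 (by rw [← hr.isIdempotentElem.eq, hrS r h])
    have hfam' : OrthFam M p G (insert r S) := by
      refine ⟨fun s hs => ?_, ?_⟩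
      · rcases Set.mem_insert_iff.1 hs with rfl | hs
        · exact ⟨hrM, hr, hrp, hGr, hr0⟩
        · exact hfam.1 s hs
      · intro a ha b hb hne
        rcases Set.mem_insert_iff.1 ha with ha' | ha' <;> rcases Set.mem_insert_iff.1 hb with hb' | hb'
        · exact absurd (ha'.trans hb'.symm) hne
        · rw [ha']; exact hrS b hb'
        · rw [hb']; exact hSr a ha'
        · exact hfam.2 a ha' b hb' hne
    exact hnot (hS.le_of_ge hfam' (Set.subset_insert r S) (Set.mem_insert r S))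
  · have hK : ∀ t : Finset (H →L[ℂ] H), (t : Set _) ⊆ S →
        hfam.sup * (∑ r ∈ t, r) = ∑ r ∈ t, r := fun t ht => by
      rw [Finset.mul_sum]
      exact Finset.sum_congr rfl fun r hr => hfam.sup_mul_of_mem (ht hr)
    suffices h : ∃ t : Finset (H →L[ℂ] H), (t : Set _) ⊆ S ∧
        ∀ v ∈ F, ‖(hfam.sup - ∑ r ∈ t, r) v‖ ≤ δ by
      obtain ⟨t, ht, hv⟩ := h
      exact ⟨t, fun r hr => ⟨(hfam.1 r (ht hr)).1, (hfam.1 r (ht hr)).2.1,
        (hfam.1 r (ht hr)).2.2.1, (hfam.1 r (ht hr)).2.2.2.1⟩,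
        fun a ha b hb => hfam.2 a (ht ha) b (ht hb), (hfam.sum_proj ht).1, hK t ht, hv⟩
    have hmono : ∀ t t' : Finset (H →L[ℂ] H), (t : Set _) ⊆ S → t' ⊆ t → ∀ v,
        ‖(hfam.sup - ∑ r ∈ t, r) v‖ ≤ ‖(hfam.sup - ∑ r ∈ t', r) v‖ := fun t t' ht hsub v => by
      have h1 : (∑ r ∈ t, r) * hfam.sup = ∑ r ∈ t, r := by
        have h := congrArg star (hK t ht)
        rwa [star_mul, (hfam.sum_proj ht).1.isSelfAdjoint.star_eq,
          hfam.sup_proj.isSelfAdjoint.star_eq] at h
      have e : (1 - ∑ r ∈ t, r) * (hfam.sup - ∑ r ∈ t', r) = hfam.sup - ∑ r ∈ t, r := by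
        rw [sub_mul, one_mul, mul_sub, h1, hfam.sum_mul_sum ht hsub]; abel
      rw [← e]
      exact norm_proj_apply_le (hfam.sum_proj ht).1.one_sub _
    induction F using Finset.induction_on with
    | empty => exact ⟨∅, by simp, by simp⟩
    | insert v F _ ih =>
      obtain ⟨t, ht, hF⟩ := ih
      have hmem : hfam.sup v ∈ closure (hfam.finSub : Set H) := by
        rw [← Submodule.topologicalClosure_coe]
        exact Submodule.starProjection_apply_mem _ _
      obtain ⟨w, ⟨t', ht', hw⟩, hd⟩ := Metric.mem_closure_iff.1 hmem δ hδ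
      have hu : ((t ∪ t' : Finset (H →L[ℂ] H)) : Set (H →L[ℂ] H)) ⊆ S := by
        rw [Finset.coe_union]; exact Set.union_subset ht ht'
      refine ⟨t ∪ t', hu, fun u huF => ?_⟩
      rcases Finset.mem_insert.1 huF with rfl | huF
      · refine (hmono _ t' hu Finset.subset_union_right u).trans ?_
        have h1 : (∑ r ∈ t', r) * hfam.sup = ∑ r ∈ t', r := by
          have h := congrArg star (hK t' ht')
          rwa [star_mul, (hfam.sum_proj ht').1.isSelfAdjoint.star_eq,
            hfam.sup_proj.isSelfAdjoint.star_eq] at h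
        have e : (hfam.sup - ∑ r ∈ t', r) u = (1 - ∑ r ∈ t', r) (hfam.sup u - w) := by
          show hfam.sup u - (∑ r ∈ t', r) u = (hfam.sup u - w) - (∑ r ∈ t', r) (hfam.sup u - w)
          rw [map_sub, hw, apply_mul, h1]
          abel
        rw [e]
        refine (norm_proj_apply_le (hfam.sum_proj ht').1.one_sub _).trans ?_
        rw [← dist_eq_norm]
        exact hd.le
      · exact (hmono _ t hu Finset.subset_union_left u).trans (hF u huF)

end Gen

end Vale.Agent.P078
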