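import Mathlib
import Vale.Agent.P078.FinalVN
import Vale.Agent.P078.Semi.Average
import Vale.Agent.P078.Gen.Normal
import Vale.Agent.P078.Gen.OrthFamily

/-!
# The limit of vector functionals composed with pinchings, and its null projections
-/

open scoped InnerProductSpace ComplexOrder Topology
open ContinuousLinearMap Filter

namespace Vale.Agent.P078

universe u

variable {H : Type u} [NormedAddCommGroup H] [InnerProductSpace ℂ H] [CompleteSpace H]

namespace Gen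

open Semi

variable {A : StarSubalgebra ℂ (H →L[ℂ] H)} {e : H →L[ℂ] H} {M : VonNeumannAlgebra H}

/-- `∑ ⟨v, T_Q x v⟩`. -/
noncomputable def pinchVal (Q : Pn A e) (F : Finset H) (x : H →L[ℂ] H) : ℂ :=
  ∑ v ∈ F, ⟪v, Q.T x v⟫_ℂ

lemma norm_pinchVal_le (Q : Pn A e) (F : Finset H) (x : H →L[ℂ] H) :
    ‖pinchVal Q F x‖ ≤ ‖x‖ * ∑ v ∈ F, ‖v‖ ^ 2 := by
  rw [pinchVal, Finset.mul_sum]
  refine (norm_sum_le _ _).trans (Finset.sum_le_sum fun v _ => ?_)
  refine (norm_inner_le_norm _ _).trans ?_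
  refine (mul_le_mul_of_nonneg_left ((Q.T x).le_opNorm v) (norm_nonneg v)).trans ?_
  nlinarith [mul_le_mul_of_nonneg_right (Q.norm_T_le x) (sq_nonneg ‖v‖)]

lemma pinchVal_add (Q : Pn A e) (F : Finset H) (x y : H →L[ℂ] H) :
    pinchVal Q F (x + y) = pinchVal Q F x + pinchVal Q F y := by
  rw [pinchVal, pinchVal, pinchVal, ← Finset.sum_add_distrib]
  refine Finset.sum_congr rfl fun v _ => ?_
  rw [← inner_add_right, ← add_apply]
  simp [Pn.T, mul_add, add_mul, Finset.sum_add_distrib, inner_add_right, inner_sum]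

lemma pinchVal_smul (Q : Pn A e) (F : Finset H) (c : ℂ) (x : H →L[ℂ] H) :
    pinchVal Q F (c • x) = c * pinchVal Q F x := by
  rw [pinchVal, pinchVal, Finset.mul_sum]
  refine Finset.sum_congr rfl fun v _ => ?_
  rw [← inner_smul_right]
  congr 1
  simp [Pn.T, Finset.smul_sum]

lemma pinchVal_sq (Q : Pn A e) (F : Finset H) (x : H →L[ℂ] H) :
    pinchVal Q F (star x * x) = ((∑ v ∈ F, ∑ i, ‖x (Q.f i v)‖ ^ 2 : ℝ) : ℂ) := by
  rw [pinchVal, Complex.ofReal_sum]
  refine Finset.sum_congr rfl fun v _ => ?_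
  rw [Pn.T, sum_apply, inner_sum, Complex.ofReal_sum]
  refine Finset.sum_congr rfl fun i _ => ?_
  show ⟪v, Q.f i ((star x) (x (Q.f i v)))⟫_ℂ = _
  rw [← proj_inner (Q.proj i), star_eq_adjoint, adjoint_inner_right, inner_self_eq_norm_sq_to_K]
  simp

/-- A functional obtained as a limit along ever finer partitions. -/
theorem exists_limitFun (hA : IsMASA M A) (he : IsStarProjection e) (heA : e ∈ A) (F : Finset H) :
    ∃ φ : M.toStarSubalgebra →ₚ[ℂ] ℂ,
      (∀ g x : M.toStarSubalgebra, (g : H →L[ℂ] H) ∈ A → IsStarProjection g →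
        φ (g * x) = φ (x * g)) ∧
      φ (1 - ⟨e, hA.1 e heA⟩) = 0 ∧
      ∀ x : M.toStarSubalgebra, ∀ c : ℝ, (φ x).re < c →
        ∃ Q : Pn A e, (pinchVal Q F (x : H →L[ℂ] H)).re < c := by
  have : Nonempty (Pn A e) := ⟨Pn.one he heA⟩
  have : IsDirectedOrder (Pn A e) :=
    ⟨fun Q Q' => ⟨Pn.common hA.2.1 Q Q', Pn.left_le_common _ _ _, Pn.right_le_common _ _ _⟩⟩
  obtain ⟨U, hU⟩ := Ultrafilter.exists_le (atTop : Filter (Pn A e))
  have hlim : ∀ x : H →L[ℂ] H, ∃ c, Tendsto (fun Q : Pn A e => pinchVal Q F x) (U : Filter (Pn A e)) (𝓝 c) := fun x => by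
    obtain ⟨c, -, hc⟩ :=
      (isCompact_closedBall (0 : ℂ) (‖x‖ * ∑ v ∈ F, ‖v‖ ^ 2)).ultrafilter_le_nhds
        (U.map fun Q => pinchVal Q F x) (by
          rw [Filter.le_principal_iff, Ultrafilter.coe_map, Filter.mem_map]
          exact Filter.univ_mem' fun Q => mem_closedBall_zero_iff.2 (norm_pinchVal_le Q F x))
    exact ⟨c, hc⟩
  choose L hL using hlim
  let φ₀ : M.toStarSubalgebra →ₗ[ℂ] ℂ :=
    { toFun := fun x => L (x : H →L[ℂ] H)
      map_add' := fun x y => tendsto_nhds_unique (hL _)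
        (((hL _).add (hL _)).congr fun Q => (pinchVal_add Q F _ _).symm)
      map_smul' := fun c x => tendsto_nhds_unique (hL _)
        (((hL _).const_mul c).congr fun Q => (pinchVal_smul Q F c _).symm) }
  have hpos : ∀ s : M.toStarSubalgebra, 0 ≤ φ₀ (star s * s) := fun s => by
    have h1 : Tendsto (fun Q : Pn A e => pinchVal Q F (star (s : H →L[ℂ] H) * (s : H →L[ℂ] H)))
        (U : Filter (Pn A e))
        (𝓝 (φ₀ (star s * s))) := hL _
    rw [Complex.nonneg_iff]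
    refine ⟨?_, ?_⟩
    · refine ge_of_tendsto ((Complex.continuous_re.tendsto _).comp h1)
        (Eventually.of_forall fun Q => ?_)
      show 0 ≤ (pinchVal Q F _).re
      rw [pinchVal_sq, Complex.ofReal_re]
      positivity
    · refine tendsto_nhds_unique (tendsto_const_nhds (f := (U : Filter (Pn A e))))
        (((Complex.continuous_im.tendsto _).comp h1).congr fun Q => ?_)
      show (pinchVal Q F _).im = _
      rw [pinchVal_sq, Complex.ofReal_im]
  refine ⟨PositiveLinearMap.mk₀ φ₀ fun x hx => ?_, fun g x hgA hg => ?_, ?_, fun x c hc => ?_⟩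
  · obtain ⟨s, rfl⟩ := CStarAlgebra.nonneg_iff_eq_star_mul_self.1 hx
    exact hpos s
  · refine tendsto_nhds_unique (hL _) ((hL _).congr' ?_)
    have hgp : IsStarProjection (g : H →L[ℂ] H) :=
      ⟨congrArg Subtype.val hg.isIdempotentElem.eq, congrArg Subtype.val hg.isSelfAdjoint.star_eq⟩
    filter_upwards [(eventually_ge_atTop (Pn.split hA.2.1 he heA hgp hgA)).filter_mono hU] with Q hQ
    rw [pinchVal, pinchVal]
    refine Finset.sum_congr rfl fun v _ => ?_
    have h1 := Pn.commute_T_of_split hA.2.1 he heA hgp hgA hQ (x : H →L[ℂ] H)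
    have hc : ∀ i, Q.f i * (g : H →L[ℂ] H) = (g : H →L[ℂ] H) * Q.f i := fun i =>
      hA.2.1 _ (Q.mem i) _ hgA
    have h2 : Q.T ((g : H →L[ℂ] H) * (x : H →L[ℂ] H)) = (g : H →L[ℂ] H) * Q.T (x : H →L[ℂ] H) := by
      rw [Pn.T, Pn.T, Finset.mul_sum]
      exact Finset.sum_congr rfl fun i _ => by simp only [← mul_assoc, hc]
    have h3 : Q.T ((x : H →L[ℂ] H) * (g : H →L[ℂ] H)) = Q.T (x : H →L[ℂ] H) * (g : H →L[ℂ] H) := by
      rw [Pn.T, Pn.T, Finset.sum_mul]
      exact Finset.sum_congr rfl fun i _ => by simp only [mul_assoc, hc]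
    show ⟪v, Q.T ((x : H →L[ℂ] H) * (g : H →L[ℂ] H)) v⟫_ℂ
      = ⟪v, Q.T ((g : H →L[ℂ] H) * (x : H →L[ℂ] H)) v⟫_ℂ
    rw [h2, h3, h1.eq]
  · refine tendsto_nhds_unique (hL _)
      (Tendsto.congr (fun Q => ?_) (tendsto_const_nhds (x := (0 : ℂ))))
    show (0 : ℂ) = pinchVal Q F (1 - e)
    have h : Q.T (1 - e) = 0 := Finset.sum_eq_zero fun i _ => by
      rw [mul_sub, mul_one, Q.f_mul_e, sub_self, zero_mul]
    simp [pinchVal, h]
  · exact ((((Complex.continuous_re.tendsto _).comp (hL (x : H →L[ℂ] H))).eventually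
      (gt_mem_nhds hc))).exists

/-- Domination on subprojections gives strong continuity below `P`. -/
theorem dominated_tendsto (φ : M.toStarSubalgebra →ₚ[ℂ] ℂ) (u : H) {P : H →L[ℂ] H} (hPM : P ∈ M)
    (hP : IsStarProjection P)
    (hdom : ∀ r (hr : r ∈ M), IsStarProjection r → r * P = r → (φ ⟨r, hr⟩).re ≤ ‖r u‖ ^ 2) :
    Tendsto (fun x : M.toStarSubalgebra =>
      (φ (star (x * ⟨P, hPM⟩) * (x * ⟨P, hPM⟩))).re) (sFilter M) (𝓝 0) := by
  have key : ∀ ε : ℝ, 0 < ε → ∀ᶠ x in sFilter M, ‖gvec φ (x * ⟨P, hPM⟩)‖ ≤ ε := by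
    intro ε hε
    set g1 : ℝ := ‖gvec φ (1 : M.toStarSubalgebra)‖ with hg1
    set η : ℝ := ε / (2 * (g1 + 1)) with hηdef
    have hη : 0 < η := by have : 0 ≤ g1 := norm_nonneg _; positivity
    refine (eventually_sFilter M).2 ⟨{P u}, η * (ε / 2), by positivity, fun x hx hs => ?_⟩
    set y : M.toStarSubalgebra := x * ⟨P, hPM⟩ with hy
    have hyn : ‖(y : H →L[ℂ] H)‖ ≤ 1 :=
      (norm_mul_le _ _).trans (mul_le_one₀ hx (norm_nonneg _)
        (opNorm_le_bound _ zero_le_one fun v => by rw [one_mul]; exact norm_proj_apply_le hP v))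
    obtain ⟨R, hR, hRc, hRle, hRsm, -⟩ := exists_sq_cut (y : H →L[ℂ] H) hη.le
    have hbM : star (y : H →L[ℂ] H) * (y : H →L[ℂ] H) ∈ M := mul_mem (star_mem y.2) y.2
    have hRM : R ∈ M := mem_vn fun z hz => hRc z (commute_commutant hbM hz)
    have hRP : R * P = R := by
      ext v
      show R (P v) = R v
      have h := hRle (v - P v)
      have h0 : (y : H →L[ℂ] H) (v - P v) = 0 := by
        show (x : H →L[ℂ] H) (P (v - P v)) = 0
        rw [map_sub P, apply_mul P P, hP.isIdempotentElem.eq, sub_self, map_zero]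
      rw [h0, norm_zero, map_sub] at h
      have h1 : R v - R (P v) = 0 := norm_le_zero_iff.1 (nonpos_of_mul_nonpos_right h hη)
      exact (sub_eq_zero.1 h1).symm
    set R' : M.toStarSubalgebra := ⟨R, hRM⟩
    have hR' : IsStarProjection R' :=
      ⟨Subtype.ext hR.isIdempotentElem.eq, Subtype.ext hR.isSelfAdjoint.star_eq⟩
    have hgR : ‖gvec φ R'‖ ≤ ε / 2 := by
      refine le_of_pow_le_pow_left₀ two_ne_zero (by positivity) ?_
      rw [norm_sq_gvec, hR'.isSelfAdjoint.star_eq, hR'.isIdempotentElem.eq]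
      refine (hdom R hRM hR hRP).trans (pow_le_pow_left₀ (norm_nonneg _) ?_ 2)
      have h := (hRle u).trans (hs (P u) (Finset.mem_singleton_self _))
      exact le_of_mul_le_mul_left h hη
    have h1 : ‖gvec φ (y * R')‖ ≤ ε / 2 := by
      rw [← rep_gvec]
      exact ((rep φ y).le_opNorm _).trans ((mul_le_of_le_one_left (norm_nonneg _)
        ((norm_rep_le φ y).trans hyn)).trans hgR)
    have h2 : ‖gvec φ (y * (1 - R'))‖ ≤ η * g1 := by
      have hn : ‖y * (1 - R')‖ ≤ η := by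
        refine opNorm_le_bound _ hη.le fun v => ?_
        exact (hRsm v).trans (mul_le_mul_of_nonneg_left (norm_proj_apply_le hR.one_sub v) hη.le)
      have e : gvec φ (y * (1 - R')) = rep φ (y * (1 - R')) (gvec φ 1) := by
        rw [rep_gvec, mul_one]
      rw [e]
      exact ((rep φ _).le_opNorm _).trans
        (mul_le_mul_of_nonneg_right ((norm_rep_le φ _).trans hn) (norm_nonneg _))
    have e : gvec φ y = gvec φ (y * R') + gvec φ (y * (1 - R')) := by
      rw [← rep_gvec φ y R', ← rep_gvec φ y (1 - R'), ← map_add]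
      have : gvec φ R' + gvec φ (1 - R') = gvec φ (1 : M.toStarSubalgebra) := by
        simp only [gvec, ← UniformSpace.Completion.coe_add, ← map_add, add_sub_cancel]
      rw [this, rep_gvec, mul_one]
    rw [e]
    have h3 : η * g1 ≤ ε / 2 := by
      rw [hηdef, div_mul_eq_mul_div, div_le_iff₀ (by have : 0 ≤ g1 := norm_nonneg _; positivity)]
      nlinarith [show 0 ≤ g1 from norm_nonneg _]
    linarith [norm_add_le (gvec φ (y * R')) (gvec φ (y * (1 - R')))]
  simp only [← norm_sq_gvec]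
  have h : Tendsto (fun x : M.toStarSubalgebra => ‖gvec φ (x * ⟨P, hPM⟩)‖) (sFilter M) (𝓝 0) := by
    refine NormedAddGroup.tendsto_nhds_zero.2 fun ε hε => ?_
    exact (key (ε / 2) (half_pos hε)).mono fun x hx => by rw [norm_norm]; linarith
  simpa using h.pow 2

/-- A nonzero projection below `e` contains a nonzero projection killed by the functional. -/
theorem exists_null_subproj (φ : M.toStarSubalgebra →ₚ[ℂ] ℂ) (hA : IsMASA M A)
    (he : IsStarProjection e) (heM : e ∈ M)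
    (hcen : ∀ g x : M.toStarSubalgebra, (g : H →L[ℂ] H) ∈ A → IsStarProjection g →
      φ (g * x) = φ (x * g))
    (hφe : φ (1 - ⟨e, heM⟩) = 0)
    (hsing : ∀ ψ, IsCentralNormal M A ψ → ψ (1 - ⟨e, heM⟩) = 0 → ψ 1 = 0)
    {p : H →L[ℂ] H} (hpM : p ∈ M) (hp : IsStarProjection p) (hp0 : p ≠ 0) :
    ∃ P : M.toStarSubalgebra, IsStarProjection P ∧ (P : H →L[ℂ] H) * p = P ∧ φ P = 0 ∧ P ≠ 0 := by
  classical
  obtain ⟨v, hv⟩ : ∃ v, p v ≠ 0 := by
    by_contra h
    push Not at h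
    exact hp0 (ext h)
  set w : ℝ := (φ ⟨p, hpM⟩).re with hw
  obtain ⟨u, hpu, hu⟩ : ∃ u, p u = u ∧ w < ‖u‖ ^ 2 := by
    refine ⟨((Real.sqrt (|w| + 1) / ‖p v‖ : ℝ) : ℂ) • p v, ?_, ?_⟩
    · rw [map_smul, apply_mul, hp.isIdempotentElem.eq]
    · rw [norm_smul, Complex.norm_real, Real.norm_of_nonneg (by positivity),
        div_mul_cancel₀ _ (norm_ne_zero_iff.2 hv), Real.sq_sqrt (by positivity)]
      linarith [le_abs_self w]
  let G : (H →L[ℂ] H) → Prop := fun r => ∃ hr : r ∈ M, ‖r u‖ ^ 2 ≤ (φ ⟨r, hr⟩).re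
  obtain ⟨K, hKM, hK, hKp, hmax, happ⟩ := exists_maximal_orth M hp G
  have hproj : ∀ {r : H →L[ℂ] H} (hr : r ∈ M), IsStarProjection r →
      IsStarProjection (⟨r, hr⟩ : M.toStarSubalgebra) := fun hr h =>
    ⟨Subtype.ext h.isIdempotentElem.eq, Subtype.ext h.isSelfAdjoint.star_eq⟩
  have hnn : ∀ {r : H →L[ℂ] H} (hr : r ∈ M), IsStarProjection r →
      0 ≤ (φ ⟨r, hr⟩).re := fun hr h =>
    (Complex.nonneg_iff.1 (φ.map_nonneg (hproj hr h).nonneg)).1
  have hKω : ‖K u‖ ^ 2 ≤ (φ ⟨K, hKM⟩).re := by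
    refine le_of_forall_pos_le_add fun ε hε => ?_
    obtain ⟨t, ht, horth, htp, hKt, htv⟩ := happ {u} (ε / (2 * ‖u‖ + 1)) (by positivity)
    have htM : (∑ r ∈ t, r) ∈ M := sum_mem fun r hr => (ht r hr).1
    have hsum : (φ ⟨∑ r ∈ t, r, htM⟩).re = ∑ r ∈ t.attach, (φ ⟨r.1, (ht r.1 r.2).1⟩).re := by
      rw [← Complex.re_sum, ← map_sum]
      congr 2
      exact Subtype.ext (by simp [Finset.sum_attach t (fun r => r)])
    have h1 : ‖(∑ r ∈ t, r) u‖ ^ 2 ≤ (φ ⟨∑ r ∈ t, r, htM⟩).re := by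
      rw [hsum, sum_apply, norm_sq_sum_orth t (fun r hr => (ht r hr).2.1) horth (fun _ => u),
        ← Finset.sum_attach t fun r => ‖r u‖ ^ 2]
      exact Finset.sum_le_sum fun r _ => (ht r.1 r.2).2.2.2.2
    have h2 : (φ ⟨∑ r ∈ t, r, htM⟩).re ≤ (φ ⟨K, hKM⟩).re := by
      have h := hnn (sub_mem hKM htM) (by
        refine ⟨?_, hK.isSelfAdjoint.sub htp.isSelfAdjoint⟩
        have h' : (∑ r ∈ t, r) * K = ∑ r ∈ t, r := by
          have h'' := congrArg star hKt
          rwa [star_mul, htp.isSelfAdjoint.star_eq, hK.isSelfAdjoint.star_eq] at h''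
        show (K - _) * (K - _) = _
        rw [sub_mul, mul_sub, mul_sub, hK.isIdempotentElem.eq, hKt, h', htp.isIdempotentElem.eq]
        abel)
      rw [show (⟨K - ∑ r ∈ t, r, sub_mem hKM htM⟩ : M.toStarSubalgebra)
        = ⟨K, hKM⟩ - ⟨∑ r ∈ t, r, htM⟩ from rfl, map_sub, Complex.sub_re] at h
      linarith
    have h3 : ‖K u‖ ≤ ‖(∑ r ∈ t, r) u‖ + ε / (2 * ‖u‖ + 1) :=
      (norm_le_norm_add_norm_sub' (K u) ((∑ r ∈ t, r) u)).trans
        (add_le_add le_rfl (htv u (Finset.mem_singleton_self u)))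
    have h4 : ‖(∑ r ∈ t, r) u‖ ≤ ‖u‖ := norm_proj_apply_le htp u
    have h5 : ‖K u‖ ≤ ‖u‖ := norm_proj_apply_le hK u
    have h6 : ε / (2 * ‖u‖ + 1) * (2 * ‖u‖ + 1) = ε := by field_simp
    have h7 : 0 ≤ ε / (2 * ‖u‖ + 1) := by positivity
    have h8 : ‖K u‖ ^ 2 - ‖(∑ r ∈ t, r) u‖ ^ 2 ≤ ε := by
      nlinarith [norm_nonneg (K u), norm_nonneg ((∑ r ∈ t, r) u)]
    linarith
  set P₁ := p - K with hP₁
  have hpK : p * K = K := by
    have h := congrArg star hKp
    rwa [star_mul, hp.isSelfAdjoint.star_eq, hK.isSelfAdjoint.star_eq] at h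
  have hP₁p : IsStarProjection P₁ := by
    refine ⟨?_, hp.isSelfAdjoint.sub hK.isSelfAdjoint⟩
    show (p - K) * (p - K) = p - K
    rw [sub_mul, mul_sub, mul_sub, hp.isIdempotentElem.eq, hpK, hKp, hK.isIdempotentElem.eq]
    abel
  have hP₁M : P₁ ∈ M := sub_mem hpM hKM
  have hP₁p' : P₁ * p = P₁ := by rw [hP₁, sub_mul, hp.isIdempotentElem.eq, hKp]
  have hP₁K : P₁ * K = 0 := by rw [hP₁, sub_mul, hpK, hK.isIdempotentElem.eq, sub_self]
  refine ⟨⟨P₁, hP₁M⟩, hproj hP₁M hP₁p, hP₁p', ?_, fun h0 => ?_⟩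
  · refine eq_zero_of_dominated φ hA hcen (hproj heM he) hφe hsing (hproj hP₁M hP₁p) ?_
    refine dominated_tendsto φ u hP₁M hP₁p fun r hrM hr hrP => ?_
    by_cases hr0 : r = 0
    · subst hr0
      simp [show (⟨0, hrM⟩ : M.toStarSubalgebra) = 0 from rfl]
    · refine le_of_not_ge fun hle => hr0 (hmax r hrM hr ?_ ?_ ⟨hrM, hle⟩)
      · rw [← hrP, mul_assoc, hP₁p']
      · rw [← hrP, mul_assoc, hP₁K, mul_zero]
  · have hpK' : p = K := sub_eq_zero.1 (congrArg Subtype.val h0)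
    subst hpK'
    rw [hpu] at hKω
    linarith

end Gen

end Vale.Agent.P078
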