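import Mathlib
import Vale.Agent.P078.Gen.LimitFun

/-!
# Spread projections over a part of a MASA without central normal functionals
-/

open scoped InnerProductSpace ComplexOrder
open ContinuousLinearMap

namespace Vale.Agent.P078

universe u

variable {H : Type u} [NormedAddCommGroup H] [InnerProductSpace ℂ H] [CompleteSpace H]

namespace Gen

open Semi

variable {A : StarSubalgebra ℂ (H →L[ℂ] H)} {e : H →L[ℂ] H} {M : VonNeumannAlgebra H}

/-- A projection near `e` on `F`, killed by a functional without normal part. -/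
lemma exists_null_near (hA : IsMASA M A) (he : IsStarProjection e) (heA : e ∈ A)
    (φ : M.toStarSubalgebra →ₚ[ℂ] ℂ)
    (hcen : ∀ g x : M.toStarSubalgebra, (g : H →L[ℂ] H) ∈ A → IsStarProjection g →
      φ (g * x) = φ (x * g))
    (hφe : φ (1 - ⟨e, hA.1 e heA⟩) = 0)
    (hsing : ∀ ψ, IsCentralNormal M A ψ → ψ (1 - ⟨e, hA.1 e heA⟩) = 0 → ψ 1 = 0)
    (F : Finset H) {η : ℝ} (hη : 0 < η) :
    ∃ h : M.toStarSubalgebra, IsStarProjection (h : H →L[ℂ] H) ∧ (h : H →L[ℂ] H) * e = h ∧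
      φ h = 0 ∧ ∀ v ∈ F, ‖(e - (h : H →L[ℂ] H)) v‖ ≤ η := by
  let G : (H →L[ℂ] H) → Prop := fun r => ∃ hr : r ∈ M, φ ⟨r, hr⟩ = 0
  obtain ⟨K, hKM, hK, hKe, hmax, happ⟩ := exists_maximal_orth M he G
  have heM := hA.1 e heA
  have heK : e * K = K := by
    have h := congrArg star hKe
    rwa [star_mul, he.isSelfAdjoint.star_eq, hK.isSelfAdjoint.star_eq] at h
  have hKeq : K = e := by
    by_contra hne
    have hd : IsStarProjection (e - K) := by
      refine ⟨?_, he.isSelfAdjoint.sub hK.isSelfAdjoint⟩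
      show (e - K) * (e - K) = e - K
      rw [sub_mul, mul_sub, mul_sub, he.isIdempotentElem.eq, heK, hKe, hK.isIdempotentElem.eq]
      abel
    obtain ⟨P, hP, hPd, hPφ, hP0⟩ := exists_null_subproj φ hA he heM hcen hφe hsing
      (sub_mem heM hKM) hd (sub_ne_zero.2 (Ne.symm hne))
    refine hP0 (Subtype.ext (hmax _ P.2 ?_ ?_ ?_ ⟨P.2, hPφ⟩))
    · exact ⟨congrArg Subtype.val hP.isIdempotentElem.eq,
        congrArg Subtype.val hP.isSelfAdjoint.star_eq⟩
    · conv_lhs => rw [← hPd]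
      rw [mul_assoc, sub_mul, he.isIdempotentElem.eq, hKe, hPd]
    · rw [← hPd, mul_assoc, sub_mul, heK, hK.isIdempotentElem.eq, sub_self, mul_zero]
  obtain ⟨t, ht, -, htp, hKt, htv⟩ := happ F η hη
  refine ⟨⟨∑ r ∈ t, r, sum_mem fun r hr => (ht r hr).1⟩, htp, ?_, ?_, fun v hv => ?_⟩
  · show (∑ r ∈ t, r) * e = ∑ r ∈ t, r
    rw [Finset.sum_mul]
    exact Finset.sum_congr rfl fun r hr => (ht r hr).2.2.1
  · have e1 : (⟨∑ r ∈ t, r, sum_mem fun r hr => (ht r hr).1⟩ : M.toStarSubalgebra)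
        = ∑ r ∈ t.attach, ⟨r.1, (ht r.1 r.2).1⟩ :=
      Subtype.ext (by simp [Finset.sum_attach t (fun r => r)])
    rw [e1, map_sum]
    exact Finset.sum_eq_zero fun r _ => (ht r.1 r.2).2.2.2.2
  · have := htv v hv
    rwa [hKeq] at this

lemma sum_sq_proj_le (Q : Pn A e) (h : H →L[ℂ] H) (hh : IsStarProjection h) (w : H) :
    ∑ i, ‖h (Q.f i w)‖ ^ 2 ≤ ‖w‖ ^ 2 := by
  refine (Finset.sum_le_sum fun i _ =>
    pow_le_pow_left₀ (norm_nonneg _) (norm_proj_apply_le hh _) 2).trans ?_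
  rw [← norm_sq_sum_orth _ (fun i _ => Q.proj i) (fun i _ j _ => Q.orth i j), ← sum_apply, Q.sum_eq]
  exact pow_le_pow_left₀ (norm_nonneg _) (norm_proj_apply_le Q.e_proj w) 2

/-- Over a part without central normal functionals there are projections near `e` which are
spread out over a finite partition. -/
theorem exists_spread (hA : IsMASA M A) (he : IsStarProjection e) (heA : e ∈ A)
    (hsing : ∀ ψ, IsCentralNormal M A ψ → ψ (1 - ⟨e, hA.1 e heA⟩) = 0 → ψ 1 = 0)
    (F : Finset H) {δ s : ℝ} (hδ : 0 < δ) (hs : 0 < s) :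
    ∃ (Q : Pn A e) (p : H →L[ℂ] H), p ∈ M ∧ IsStarProjection p ∧ p * e = p ∧
      (∀ v ∈ F, ‖(e - p) v‖ ≤ δ) ∧ ∀ i, ‖Q.f i * p‖ ≤ s := by
  have heM := hA.1 e heA
  obtain ⟨φ, hcen, hφe, hlim⟩ := exists_limitFun (M := M) hA he heA F
  set η : ℝ := min (δ / 2) (δ * s ^ 2 / 4) with hη_def
  have hη : 0 < η := lt_min (by positivity) (by positivity)
  obtain ⟨h, hh, hhe, hφh, hhF⟩ := exists_null_near hA he heA φ hcen hφe hsing F hη
  obtain ⟨Q, hQ⟩ := hlim h (η ^ 2) (by rw [hφh, Complex.zero_re]; positivity)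
  set h' : H →L[ℂ] H := (h : H →L[ℂ] H) with hh'
  have hhM : h' ∈ M := h.2
  have heh : e * h' = h' := by
    have h0 := congrArg star hhe
    rwa [star_mul, he.isSelfAdjoint.star_eq, hh.isSelfAdjoint.star_eq] at h0
  have hfM : ∀ i, Q.f i ∈ M := fun i => hA.1 _ (Q.mem i)
  set b := h' * Q.T h' * h' with hb
  have hbM : b ∈ M := mul_mem (mul_mem hhM (Q.T_mem hA hhM)) hhM
  have hbs : IsSelfAdjoint b := by
    show star b = b
    rw [hb, star_mul, star_mul, hh.isSelfAdjoint.star_eq,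
      (Q.T_isSelfAdjoint hh.isSelfAdjoint).star_eq, mul_assoc]
  have hbq : ∀ w, (⟪w, b w⟫_ℂ).re = ∑ i, ‖h' (Q.f i (h' w))‖ ^ 2 := fun w => by
    show (⟪w, h' (Q.T h' (h' w))⟫_ℂ).re = _
    rw [← proj_inner hh, Pn.T, sum_apply, inner_sum, Complex.re_sum]
    refine Finset.sum_congr rfl fun i _ => ?_
    show (⟪h' w, Q.f i (h' (Q.f i (h' w)))⟫_ℂ).re = _
    rw [← proj_inner (Q.proj i), ← inner_self_eq_norm_sq (𝕜 := ℂ), proj_inner hh, apply_mul h' h',
      hh.isIdempotentElem.eq]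
    rfl
  set θ : ℝ := s ^ 4 with hθ
  set R := cut b θ with hR_def
  have hR : IsStarProjection R := cut_isStarProjection _ _
  have hRM : R ∈ M := cut_mem hbs hbM θ
  have hbR : ∀ w, θ * ‖R w‖ ^ 2 ≤ (⟪w, b w⟫_ℂ).re := fun w => by
    have h1 := re_inner_cut_nonneg hbs θ (cut_cut_apply b θ w)
    have hc : b * R = R * b := (commute_cut hbs θ (Commute.refl b)).eq
    have hsplit : (⟪w, b w⟫_ℂ).re
        = (⟪R w, b (R w)⟫_ℂ).re + (⟪(1 - R) w, b ((1 - R) w)⟫_ℂ).re := by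
      have e1 : ⟪R w, b (R w)⟫_ℂ = ⟪w, (b * R) w⟫_ℂ := by
        rw [proj_inner hR, apply_mul R b, ← hc]
        show ⟪w, b (R (R w))⟫_ℂ = _
        rw [apply_mul R R, hR.isIdempotentElem.eq]; rfl
      have e2 : ⟪(1 - R) w, b ((1 - R) w)⟫_ℂ = ⟪w, (b * (1 - R)) w⟫_ℂ := by
        rw [proj_inner hR.one_sub, apply_mul (1 - R) b,
          show (1 - R) * b = b * (1 - R) by rw [sub_mul, mul_sub, one_mul, mul_one, hc]]
        show ⟪w, b ((1 - R) ((1 - R) w))⟫_ℂ = _
        rw [apply_mul (1 - R) (1 - R), hR.one_sub.isIdempotentElem.eq]; rfl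
      rw [e1, e2, ← Complex.add_re, ← inner_add_right, ← add_apply, ← mul_add, add_sub_cancel,
        mul_one]
    rw [hsplit]
    have h2 : 0 ≤ (⟪(1 - R) w, b ((1 - R) w)⟫_ℂ).re := by
      rw [hbq]; exact Finset.sum_nonneg fun i _ => sq_nonneg _
    linarith
  have hRh : R * h' = R := by
    ext w
    show R (h' w) = R w
    have h1 := hbR (w - h' w)
    have h0 : b (w - h' w) = 0 := by
      show h' (Q.T h' (h' (w - h' w))) = 0
      rw [map_sub h', apply_mul h' h', hh.isIdempotentElem.eq, sub_self, map_zero, map_zero]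
    rw [h0, inner_zero_right, Complex.zero_re, map_sub] at h1
    have h2 : R w - R (h' w) = 0 := by
      have h3 : ‖R w - R (h' w)‖ ^ 2 ≤ 0 := nonpos_of_mul_nonpos_right h1 (by positivity)
      exact norm_le_zero_iff.1 (by nlinarith [norm_nonneg (R w - R (h' w))])
    exact (sub_eq_zero.1 h2).symm
  have hhR : h' * R = R := by
    have h0 := congrArg star hRh
    rwa [star_mul, hR.isSelfAdjoint.star_eq, hh.isSelfAdjoint.star_eq] at h0
  refine ⟨Q, h' - R, sub_mem hhM hRM, ?_, ?_, fun v hv => ?_, fun i => ?_⟩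
  · refine ⟨?_, hh.isSelfAdjoint.sub hR.isSelfAdjoint⟩
    show (h' - R) * (h' - R) = h' - R
    rw [sub_mul, mul_sub, mul_sub, hh.isIdempotentElem.eq, hhR, hRh, hR.isIdempotentElem.eq]
    abel
  · have hRe : R * e = R := by rw [← hRh, mul_assoc, hhe]
    rw [sub_mul, hhe, hRe]
  · have h1 : ‖R v‖ ≤ 2 * η / s ^ 2 := by
      rw [le_div_iff₀ (by positivity), mul_comm]
      refine le_of_pow_le_pow_left₀ two_ne_zero (by positivity) ?_
      have e1 : (s ^ 2 * ‖R v‖) ^ 2 = θ * ‖R v‖ ^ 2 := by rw [hθ]; ring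
      rw [e1]
      refine (hbR v).trans ?_
      rw [hbq]
      have hsum : ∑ i, ‖h' (Q.f i v)‖ ^ 2 ≤ η ^ 2 := by
        have h2 : ∑ i, ‖h' (Q.f i v)‖ ^ 2 ≤ (pinchVal Q F (star h' * h')).re := by
          rw [pinchVal_sq, Complex.ofReal_re]
          exact Finset.single_le_sum (f := fun u => ∑ i, ‖h' (Q.f i u)‖ ^ 2)
            (fun u _ => Finset.sum_nonneg fun i _ => sq_nonneg _) hv
        rw [hh.isSelfAdjoint.star_eq, hh.isIdempotentElem.eq] at h2
        exact h2.trans hQ.le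
      have hev : ∀ i, Q.f i (e v) = Q.f i v := fun i => by rw [apply_mul, Q.f_mul_e]
      have hd : ∀ i, h' (Q.f i (h' v)) = h' (Q.f i v) - h' (Q.f i ((e - h') v)) := fun i => by
        show _ = h' (Q.f i v) - h' (Q.f i (e v - h' v))
        rw [map_sub, map_sub, hev, sub_sub_cancel]
      have h3 : ∑ i, ‖h' (Q.f i ((e - h') v))‖ ^ 2 ≤ η ^ 2 :=
        (sum_sq_proj_le Q h' hh _).trans (pow_le_pow_left₀ (norm_nonneg _) (hhF v hv) 2)
      calc ∑ i, ‖h' (Q.f i (h' v))‖ ^ 2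
          ≤ ∑ i, (2 * ‖h' (Q.f i v)‖ ^ 2 + 2 * ‖h' (Q.f i ((e - h') v))‖ ^ 2) :=
            Finset.sum_le_sum fun i _ => by
              rw [hd]
              nlinarith [norm_sub_le (h' (Q.f i v)) (h' (Q.f i ((e - h') v))),
                norm_nonneg (h' (Q.f i v) - h' (Q.f i ((e - h') v))),
                sq_nonneg (‖h' (Q.f i v)‖ - ‖h' (Q.f i ((e - h') v))‖)]
        _ ≤ (2 * η) ^ 2 := by
            rw [Finset.sum_add_distrib, ← Finset.mul_sum, ← Finset.mul_sum]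
            linarith
    have h2 : (e - (h' - R)) v = (e - h') v + R v := by
      rw [← add_apply, sub_sub_eq_add_sub, sub_add_eq_add_sub]
    rw [h2]
    have h3 : 2 * η / s ^ 2 ≤ δ / 2 := by
      rw [div_le_iff₀ (by positivity)]
      have := min_le_right (δ / 2) (δ * s ^ 2 / 4)
      rw [← hη_def] at this
      linarith
    linarith [norm_add_le ((e - h') v) (R v), hhF v hv, min_le_left (δ / 2) (δ * s ^ 2 / 4)]
  · refine opNorm_le_bound _ hs.le fun v => ?_
    set w := (h' - R) v with hw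
    have hp' : (1 - R) (h' v) = w := by
      show h' v - R (h' v) = h' v - R v
      rw [apply_mul R h', hRh]
    have hhw : h' w = w := by
      show h' (h' v - R v) = h' v - R v
      rw [map_sub, apply_mul h' h', hh.isIdempotentElem.eq, apply_mul h' R, hhR]
    have hcutw : R w = 0 := by rw [← hp']; exact cut_one_sub_apply b θ (h' v)
    have h1 := re_inner_one_sub_cut_nonpos hbs θ hcutw
    rw [hbq, hhw] at h1
    have h2 : ‖h' (Q.f i w)‖ ≤ s ^ 2 * ‖w‖ := by
      refine le_of_pow_le_pow_left₀ two_ne_zero (by positivity) ?_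
      refine (Finset.single_le_sum (f := fun j => ‖h' (Q.f j w)‖ ^ 2) (fun j _ => sq_nonneg _)
        (Finset.mem_univ i)).trans (h1.trans_eq ?_)
      rw [hθ]; ring
    have h3 : ‖Q.f i w‖ ^ 2 ≤ ‖w‖ * ‖h' (Q.f i w)‖ := by
      rw [← inner_self_eq_norm_sq (𝕜 := ℂ)]
      have e1 : ⟪Q.f i w, Q.f i w⟫_ℂ = ⟪w, h' (Q.f i w)⟫_ℂ := by
        rw [proj_inner (Q.proj i), apply_mul (Q.f i) (Q.f i), (Q.proj i).isIdempotentElem.eq]
        conv_rhs => rw [← proj_inner hh, hhw]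
      rw [e1]
      exact re_inner_le_norm _ _
    show ‖Q.f i w‖ ≤ s * ‖v‖
    have hwv : ‖w‖ ≤ ‖v‖ := by
      rw [← hp']
      exact (norm_proj_apply_le hR.one_sub _).trans (norm_proj_apply_le hh v)
    refine le_trans ?_ (mul_le_mul_of_nonneg_left hwv hs.le)
    refine le_of_pow_le_pow_left₀ two_ne_zero (by positivity) (h3.trans ?_)
    nlinarith [mul_le_mul_of_nonneg_left h2 (norm_nonneg w)]

end Gen

end Vale.Agent.P078
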