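import Mathlib
import Vale.Agent.P078.Semi.InfPart
import Vale.Agent.P078.Gen.Singular

/-!
# One partition approximating the averaged pinching at finitely many vectors
-/

open scoped InnerProductSpace Topology
open ContinuousLinearMap Filter

namespace Vale.Agent.P078

universe u

variable {H : Type u} [NormedAddCommGroup H] [InnerProductSpace ℂ H] [CompleteSpace H]

namespace Gen

open Semi

/-- Evaluation at the vectors of a finite set. -/
noncomputable def evAt (F : Finset H) : (H →L[ℂ] H) →ₗ[ℂ] PiLp 2 (fun _ : F => H) where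
  toFun z := WithLp.toLp 2 fun v => z v
  map_add' _ _ := rfl
  map_smul' _ _ := rfl

lemma evAt_apply (F : Finset H) (z : H →L[ℂ] H) (v : F) : evAt F z v = z v := rfl

lemma norm_sq_evAt (F : Finset H) (z : H →L[ℂ] H) :
    ‖evAt F z‖ ^ 2 = ∑ v ∈ F, ‖z v‖ ^ 2 := by
  rw [PiLp.norm_sq_eq_of_L2]
  exact Finset.sum_coe_sort F fun v => ‖z v‖ ^ 2

lemma norm_le_evAt (F : Finset H) (z : H →L[ℂ] H) {v : H} (hv : v ∈ F) : ‖z v‖ ≤ ‖evAt F z‖ := by
  refine le_of_pow_le_pow_left₀ two_ne_zero (norm_nonneg _) ?_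
  rw [norm_sq_evAt]
  exact Finset.single_le_sum (f := fun u => ‖z u‖ ^ 2) (fun u _ => sq_nonneg _) hv

variable {A : StarSubalgebra ℂ (H →L[ℂ] H)} {e : H →L[ℂ] H} {M : VonNeumannAlgebra H}
  {x p : H →L[ℂ] H}

/-- The averaged pinching, approximated by convex combinations at finitely many vectors. -/
theorem exists_average_at (hA : IsMASA M A) (he : IsStarProjection e) (heA : e ∈ A) (hxM : x ∈ M)
    (hxs : IsSelfAdjoint x) :
    ∃ a ∈ A, IsSelfAdjoint a ∧ a * e = a ∧ ‖a‖ ≤ ‖x‖ ∧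
      ∀ p : H →L[ℂ] H, IsStarProjection p → ∀ (F : Finset H) (Q₀ : Pn A e),
        evAt F (p * a * p) ∈
          closure (convexHull ℝ ((fun Q : Pn A e => evAt F (p * Q.T x * p)) '' Set.Ici Q₀)) := by
  have : Nonempty (Pn A e) := ⟨Pn.one he heA⟩
  have : IsDirectedOrder (Pn A e) :=
    ⟨fun Q Q' => ⟨Pn.common hA.2.1 Q Q', Pn.left_le_common _ _ _, Pn.right_le_common _ _ _⟩⟩
  obtain ⟨U, hU⟩ := Ultrafilter.exists_le (atTop : Filter (Pn A e))
  obtain ⟨a, han, ha⟩ := exists_weak_limit U (fun Q : Pn A e => Q.T x) ‖x‖ (norm_nonneg x)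
    fun Q => Q.norm_T_le x
  obtain ⟨haA, has, hae⟩ := weak_limit_mem_masa hA he heA hxM hxs hU ha
  refine ⟨a, haA, has, hae, han, fun p hp F Q₀ => ?_⟩
  by_contra hnot
  obtain ⟨f, u, hfs, hfu⟩ := RCLike.geometric_hahn_banach_closed_point (𝕜 := ℂ)
    (convex_convexHull ℝ _).closure isClosed_closure hnot
  set z := (InnerProductSpace.toDual ℂ (PiLp 2 (fun _ : F => H))).symm f
  have hz : ∀ w, f w = ⟪z, w⟫_ℂ := fun w =>
    (InnerProductSpace.toDual_symm_apply (𝕜 := ℂ)).symm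
  have hval : ∀ T : H →L[ℂ] H, ⟪z, evAt F (p * T * p)⟫_ℂ
      = ∑ v : F, starRingEnd ℂ ⟪T (p v), p (z v)⟫_ℂ := fun T => by
    rw [PiLp.inner_apply]
    refine Finset.sum_congr rfl fun v _ => ?_
    rw [evAt_apply, inner_conj_symm]
    exact (proj_inner hp _ _).symm
  have h1 : Tendsto (fun Q : Pn A e => ⟪z, evAt F (p * Q.T x * p)⟫_ℂ) (U : Filter (Pn A e))
      (𝓝 ⟪z, evAt F (p * a * p)⟫_ℂ) := by
    simp only [hval]
    exact tendsto_finsetSum _ fun v _ =>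
      ((RCLike.continuous_conj (K := ℂ)).tendsto _).comp (ha _ _)
  have h2 : (⟪z, evAt F (p * a * p)⟫_ℂ).re ≤ u := by
    refine le_of_tendsto ((Complex.continuous_re.tendsto _).comp h1) ?_
    filter_upwards [(eventually_ge_atTop Q₀).filter_mono hU] with Q hQ
    have := hfs _ (subset_closure (subset_convexHull ℝ _ ⟨Q, hQ, rfl⟩))
    rw [hz] at this
    exact this.le
  rw [hz] at hfu
  exact absurd h2 (not_le.2 hfu)

lemma norm_proj_mul_comm {f : H →L[ℂ] H} (hp : IsStarProjection p) (hf : IsStarProjection f) :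
    ‖p * f‖ = ‖f * p‖ := by
  rw [← norm_star, star_mul, hp.isSelfAdjoint.star_eq, hf.isSelfAdjoint.star_eq]

lemma spread_of_le {Q₀ Q : Pn A e} (hle : Q₀ ≤ Q) {s : ℝ}
    (hs : ∀ i, ‖Q₀.f i * p‖ ≤ s) (j : Fin Q.n) : ‖Q.f j * p‖ ≤ s := by
  obtain ⟨i, hi⟩ := hle j
  refine le_trans ?_ (hs i)
  rw [← hi, mul_assoc]
  refine opNorm_le_bound _ (norm_nonneg _) fun v => ?_
  exact (norm_proj_apply_le (Q.proj j) _).trans ((Q₀.f i * p).le_opNorm v)

lemma norm_spread_apply {f : H →L[ℂ] H} (hp : IsStarProjection p) (hf : IsStarProjection f)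
    {s : ℝ} (hs : ‖f * p‖ ≤ s) (w : H) : ‖p (f w)‖ ≤ s * ‖f w‖ := by
  have h : p (f w) = (p * f) (f w) := by
    show p (f w) = p (f (f w))
    rw [apply_mul f f, hf.isIdempotentElem.eq]
  rw [h]
  exact ((p * f).le_opNorm _).trans (mul_le_mul_of_nonneg_right
    ((norm_proj_mul_comm hp hf).trans_le hs) (norm_nonneg _))

lemma norm_sq_block_le {Q : Pn A e} (hp : IsStarProjection p) {s : ℝ}
    (hs : ∀ i, ‖Q.f i * p‖ ≤ s) (F : Finset H) (Z : H →L[ℂ] H) (i : Fin Q.n) :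
    ‖evAt F (p * Q.f i * Z * Q.f i * p)‖ ^ 2
      ≤ s ^ 2 * ‖Z‖ ^ 2 * ∑ v ∈ F, ‖Q.f i (p v)‖ ^ 2 := by
  rw [norm_sq_evAt, Finset.mul_sum]
  refine Finset.sum_le_sum fun v _ => ?_
  have hs0 : 0 ≤ s := (norm_nonneg _).trans (hs i)
  rw [← mul_pow, ← mul_pow]
  refine pow_le_pow_left₀ (norm_nonneg _) ?_ 2
  show ‖p (Q.f i (Z (Q.f i (p v))))‖ ≤ _
  refine (norm_spread_apply hp (Q.proj i) (hs i) _).trans ?_
  rw [mul_assoc]
  exact mul_le_mul_of_nonneg_left ((norm_proj_apply_le (Q.proj i) _).trans (Z.le_opNorm _)) hs0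

/-- The total of the small blocks. -/
lemma sum_blocks_le (Q : Pn A e) (hp : IsStarProjection p) {s : ℝ}
    (hs : ∀ i, ‖Q.f i * p‖ ≤ s) (F : Finset H) :
    ∑ i, ∑ j, ‖evAt F (p * Q.f i * x * Q.f j * p)‖ ^ 2
      ≤ s ^ 2 * ‖x‖ ^ 2 * ∑ v ∈ F, ‖v‖ ^ 2 := by
  simp only [norm_sq_evAt, Finset.mul_sum]
  rw [Finset.sum_congr rfl fun i _ => Finset.sum_comm, Finset.sum_comm]
  refine Finset.sum_le_sum fun v _ => ?_
  rw [Finset.sum_comm]
  have h1 : ∀ j, ∑ i, ‖(p * Q.f i * x * Q.f j * p) v‖ ^ 2 ≤ s ^ 2 * ‖x‖ ^ 2 * ‖Q.f j (p v)‖ ^ 2 := by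
    intro j
    set u := Q.f j (p v)
    have hstep : ∀ i, ‖(p * Q.f i * x * Q.f j * p) v‖ ^ 2 ≤ s ^ 2 * ‖Q.f i (x u)‖ ^ 2 := fun i => by
      rw [← mul_pow]
      exact pow_le_pow_left₀ (norm_nonneg _) (norm_spread_apply hp (Q.proj i) (hs i) (x u)) 2
    refine (Finset.sum_le_sum fun i _ => hstep i).trans ?_
    rw [← Finset.mul_sum, ← norm_sq_sum_orth _ (fun i _ => Q.proj i) (fun i _ j _ => Q.orth i j),
      ← sum_apply, Q.sum_eq, mul_assoc, ← mul_pow ‖x‖]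
    exact mul_le_mul_of_nonneg_left (pow_le_pow_left₀ (norm_nonneg _)
      ((norm_proj_apply_le Q.e_proj _).trans (x.le_opNorm u)) 2) (sq_nonneg _)
  refine (Finset.sum_le_sum fun j _ => h1 j).trans ?_
  rw [← Finset.mul_sum, ← norm_sq_sum_orth _ (fun i _ => Q.proj i) (fun i _ j _ => Q.orth i j),
    ← sum_apply, Q.sum_eq]
  exact mul_le_mul_of_nonneg_left (pow_le_pow_left₀ (norm_nonneg _)
    ((norm_proj_apply_le Q.e_proj _).trans (norm_proj_apply_le hp v)) 2) (by positivity)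

/-- One partition `Q ≥ Q₀` whose pinching approximates the averaged limit at the vectors of `F`. -/
lemma exists_single_pinching_at (hA : IsMASA M A) (hp : IsStarProjection p)
    {a : H →L[ℂ] H} (Q₀ : Pn A e) {s : ℝ} (hs0 : 0 ≤ s) (hs : ∀ i, ‖Q₀.f i * p‖ ≤ s)
    (F : Finset H)
    (ha : evAt F (p * a * p) ∈
      closure (convexHull ℝ ((fun Q : Pn A e => evAt F (p * Q.T x * p)) '' Set.Ici Q₀)))
    {τ : ℝ} (hτ : 0 < τ) :
    ∃ Q : Pn A e, Q₀ ≤ Q ∧ ‖evAt F (p * Q.T x * p) - evAt F (p * a * p)‖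
      ≤ τ + 2 * s * ‖x‖ * Real.sqrt (∑ v ∈ F, ‖v‖ ^ 2) := by
  obtain ⟨c, hc, hcd⟩ := Metric.mem_closure_iff.1 ha τ hτ
  obtain ⟨κ, _, w, z, hw, hw1, hz, hwz⟩ := mem_convexHull_iff_exists_fintype.1 hc
  choose R hR hzR using hz
  have : Nonempty κ := by
    by_contra h
    rw [not_nonempty_iff] at h
    simp at hw1
  let V : Fin Q₀.n → κ → PiLp 2 (fun _ : F => H) := fun i k =>
    evAt F (p * Q₀.f i * (R k).T x * Q₀.f i * p)
  let μ : Fin Q₀.n → PiLp 2 (fun _ : F => H) := fun i => ∑ k, (w k : ℂ) • V i k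
  let b : Fin Q₀.n → ℝ := fun i => Real.sqrt (∑ v ∈ F, ‖Q₀.f i (p v)‖ ^ 2)
  have hV : ∀ i k, ‖V i k‖ ≤ s * ‖x‖ * b i := fun i k => by
    refine le_of_pow_le_pow_left₀ two_ne_zero (by positivity) ?_
    refine (norm_sq_block_le hp hs F _ i).trans_eq' rfl |>.trans ?_
    simp only [b, mul_pow, Real.sq_sqrt (Finset.sum_nonneg fun v _ => sq_nonneg ‖Q₀.f i (p v)‖)]
    gcongr
    exact (R k).norm_T_le x
  have hμ : ∀ i, ‖μ i‖ ≤ s * ‖x‖ * b i := fun i => by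
    refine (norm_sum_le _ _).trans ((Finset.sum_le_sum fun k _ =>
      (?_ : _ ≤ w k * (s * ‖x‖ * b i))).trans_eq (by rw [← Finset.sum_mul, hw1, one_mul]))
    rw [norm_smul, Complex.norm_real, Real.norm_of_nonneg (hw k)]
    exact mul_le_mul_of_nonneg_left (hV i k) (hw k)
  obtain ⟨f, hf⟩ := exists_greedy Finset.univ (fun i k => V i k - μ i) w hw hw1
    (fun i _ => by
      simp only [smul_sub, Finset.sum_sub_distrib, ← Finset.sum_smul, ← Complex.ofReal_sum, hw1,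
        Complex.ofReal_one, one_smul]
      exact sub_self _)
    (fun i => (2 * (s * ‖x‖ * b i)) ^ 2)
    (fun i _ k => pow_le_pow_left₀ (norm_nonneg _)
      ((norm_sub_le _ _).trans (by linarith [hV i k, hμ i])) 2)
  let Q := Pn.glue hA.2.1 Q₀ fun i => R (f i)
  refine ⟨Q, Pn.le_glue _ _ _, ?_⟩
  have e1 : evAt F (p * Q.T x * p) = ∑ i, V i (f i) := by
    rw [Pn.glue_T, Finset.mul_sum, Finset.sum_mul, map_sum]
    exact Finset.sum_congr rfl fun i _ => congrArg (evAt F) (by noncomm_ring)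
  have e2 : c = ∑ i, μ i := by
    rw [← hwz, Finset.sum_comm]
    refine Finset.sum_congr rfl fun k _ => ?_
    rw [← Finset.smul_sum, Complex.coe_smul, ← hzR k, ← map_sum]
    refine congrArg (fun T => w k • evAt F T) ?_
    conv_lhs => rw [← Pn.T_T_of_ge hA.2.1 (hR k) x, Pn.T, Finset.mul_sum, Finset.sum_mul]
    exact Finset.sum_congr rfl fun i _ => by noncomm_ring
  have e3 : ‖evAt F (p * Q.T x * p) - c‖ ≤ 2 * s * ‖x‖ * Real.sqrt (∑ v ∈ F, ‖v‖ ^ 2) := by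
    rw [e1, e2, ← Finset.sum_sub_distrib]
    refine le_of_pow_le_pow_left₀ two_ne_zero (by positivity) (hf.trans ?_)
    simp only [mul_pow, b, Real.sq_sqrt (Finset.sum_nonneg fun v _ => sq_nonneg ‖Q₀.f _ (p v)‖),
      Real.sq_sqrt (Finset.sum_nonneg fun v (_ : v ∈ F) => sq_nonneg ‖v‖)]
    rw [← Finset.mul_sum, ← Finset.mul_sum, Finset.sum_comm]
    have hsum : ∑ v ∈ F, ∑ i, ‖Q₀.f i (p v)‖ ^ 2 ≤ ∑ v ∈ F, ‖v‖ ^ 2 :=
      Finset.sum_le_sum fun v _ => by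
        rw [← norm_sq_sum_orth _ (fun i _ => Q₀.proj i) (fun i _ j _ => Q₀.orth i j), ← sum_apply,
          Q₀.sum_eq]
        exact pow_le_pow_left₀ (norm_nonneg _)
          ((norm_proj_apply_le Q₀.e_proj _).trans (norm_proj_apply_le hp v)) 2
    nlinarith [mul_le_mul_of_nonneg_left hsum (mul_nonneg (sq_nonneg s) (sq_nonneg ‖x‖))]
  rw [dist_eq_norm, norm_sub_rev] at hcd
  linarith [norm_sub_le_norm_sub_add_norm_sub (evAt F (p * Q.T x * p)) c (evAt F (p * a * p))]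

end Gen

end Vale.Agent.P078
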