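import Mathlib
import Vale.Agent.P078.Gen.Cluster

/-!
# Paving over the part of a MASA without central normal functionals
-/

open scoped InnerProductSpace ComplexOrder
open ContinuousLinearMap

namespace Vale.Agent.P078

universe u

variable {H : Type u} [NormedAddCommGroup H] [InnerProductSpace ℂ H] [CompleteSpace H]

namespace Gen

open Semi

variable {A : StarSubalgebra ℂ (H →L[ℂ] H)} {e : H →L[ℂ] H} {M : VonNeumannAlgebra H}
  {x p : H →L[ℂ] H}

lemma exists_small_remainder_at (hA : IsMASA M A) {r : ℕ} [NeZero r]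
    (hp : IsStarProjection p) (hpe : p * e = p) {a : H →L[ℂ] H} {Q₀ : Pn A e} {s τ : ℝ}
    (hs0 : 0 ≤ s) (hs : ∀ i, ‖Q₀.f i * p‖ ≤ s) (hτ : 0 < τ) (F : Finset H)
    (ha : evAt F (p * a * p) ∈
      closure (convexHull ℝ ((fun Q : Pn A e => evAt F (p * Q.T x * p)) '' Set.Ici Q₀))) :
    ∃ (Q : Pn A e) (c : Fin Q.n → Fin r),
      ‖evAt F (p * (∑ α, colourClass Q c α * x * colourClass Q c α) * p
          - (1 / (r : ℂ)) • (p * x * p) - (1 - 1 / (r : ℂ)) • (p * a * p))‖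
        ≤ τ + 4 * s * ‖x‖ * Real.sqrt (∑ v ∈ F, ‖v‖ ^ 2) := by
  have hep : e * p = p := by
    have h := congrArg star hpe
    rwa [star_mul, hp.isSelfAdjoint.star_eq, Q₀.e_proj.isSelfAdjoint.star_eq] at h
  obtain ⟨Q, hQ, hQa⟩ := exists_single_pinching_at hA hp Q₀ hs0 hs F ha hτ
  obtain ⟨c, hc⟩ := exists_colouring (r := r) fun i j => evAt F (p * Q.f i * x * Q.f j * p)
  refine ⟨Q, c, ?_⟩
  rw [colour_expand Q c p x hpe hep, add_sub_assoc, ← smul_sub]
  simp only [map_add, map_sum, map_smul, map_sub]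
  refine (norm_add_le _ _).trans ?_
  set N := Real.sqrt (∑ v ∈ F, ‖v‖ ^ 2)
  have hr : (1 : ℝ) ≤ r := Nat.one_le_cast.2 NeZero.one_le
  have h1 : ‖∑ i, ∑ j, (colWeight c i j : ℂ) • evAt F (p * Q.f i * x * Q.f j * p)‖
      ≤ 2 * s * ‖x‖ * N := by
    refine le_of_pow_le_pow_left₀ two_ne_zero (by positivity) (hc.trans ?_)
    refine (mul_le_mul_of_nonneg_left (sum_blocks_le Q hp (spread_of_le hQ hs) F)
      (by positivity)).trans ?_
    have h2r : 2 / (r : ℝ) ≤ 4 := by rw [div_le_iff₀ (by linarith)]; linarith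
    have e1 : (2 * s * ‖x‖ * N) ^ 2 = 4 * (s ^ 2 * ‖x‖ ^ 2 * ∑ v ∈ F, ‖v‖ ^ 2) := by
      rw [show (2 * s * ‖x‖ * N) ^ 2 = 4 * (s ^ 2 * ‖x‖ ^ 2 * N ^ 2) by ring,
        Real.sq_sqrt (Finset.sum_nonneg fun v _ => sq_nonneg _)]
    rw [e1]
    exact mul_le_mul_of_nonneg_right h2r (by positivity)
  have h2 : ‖(1 - 1 / (r : ℂ)) • (evAt F (p * Q.T x * p) - evAt F (p * a * p))‖
      ≤ τ + 2 * s * ‖x‖ * N := by
    rw [norm_smul]
    refine (mul_le_of_le_one_left (norm_nonneg _) ?_).trans hQa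
    have e : (1 - 1 / (r : ℂ)) = ((1 - 1 / (r : ℝ) : ℝ) : ℂ) := by push_cast; ring
    rw [e, Complex.norm_real, Real.norm_of_nonneg]
    · linarith [show 0 ≤ 1 / (r : ℝ) by positivity]
    · rw [sub_nonneg, div_le_one (by linarith)]; exact hr
  linarith

theorem sing_part_paving (hA : IsMASA M A) (he : IsStarProjection e) (heA : e ∈ A)
    (hsing : ∀ ψ, IsCentralNormal M A ψ → ψ (1 - ⟨e, hA.1 e heA⟩) = 0 → ψ 1 = 0)
    {ε : ℝ} (hε : 0 < ε) {r : ℕ} (hr : 2 ≤ ε * r) (hxM : x ∈ M) (hxs : IsSelfAdjoint x)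
    (F : Finset H) {δ : ℝ} (hδ : 0 < δ) :
    ∃ (P : Fin r → H →L[ℂ] H) (a q : H →L[ℂ] H),
      (∀ i, P i ∈ A) ∧ (∀ i, IsStarProjection (P i)) ∧ (∀ i j, i ≠ j → P i * P j = 0) ∧
      ∑ i, P i = e ∧ a ∈ A ∧ IsSelfAdjoint a ∧ a * e = a ∧ ‖a‖ ≤ ‖x‖ ∧ q ∈ M ∧
      IsStarProjection q ∧ q * e = q ∧ (∀ v ∈ F, ‖(e - q) v‖ < δ) ∧
      ‖q * ((∑ i, P i * x * P i) - a) * q‖ ≤ ε * ‖x‖ := by
  have hr0 : r ≠ 0 := by rintro rfl; norm_num at hr
  have : NeZero r := ⟨hr0⟩
  have hr1 : (1 : ℝ) ≤ r := Nat.one_le_cast.2 NeZero.one_le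
  rcases eq_or_ne x 0 with rfl | hx0
  · let Q := Pn.one he heA
    obtain ⟨h1, h2, h3, h4⟩ := colourClass_props Q (fun _ : Fin Q.n => (0 : Fin r))
    exact ⟨colourClass Q fun _ => 0, 0, e, h1, h2, h3, h4, zero_mem _, IsSelfAdjoint.zero _,
      zero_mul e, by simp, hA.1 e heA, he, he.isIdempotentElem.eq, fun v _ => by simpa using hδ,
      by simp⟩
  obtain ⟨a₀, ha₀A, ha₀s, ha₀e, ha₀n, ha₀c⟩ := exists_average_at hA he heA hxM hxs
  set η := ε * ‖x‖ / 2 with hηdef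
  have hxn : 0 < ‖x‖ := norm_pos_iff.2 hx0
  have hη : 0 < η := by positivity
  set N := Real.sqrt (∑ v ∈ F, ‖v‖ ^ 2)
  set σ := η * (δ / 8) with hσdef
  set s := σ / (4 * ‖x‖ * (N + 1)) with hsdef
  have hσ : 0 < σ := by positivity
  have hN : 0 ≤ N := Real.sqrt_nonneg _
  have hs : 0 < s := by positivity
  obtain ⟨Q₀, p, hpM, hp, hpe, hpF, hps⟩ := exists_spread hA he heA hsing F
    (δ := δ / 4) (by positivity) hs
  obtain ⟨Q, c, hQc⟩ := exists_small_remainder_at (r := r) (x := x) (a := a₀) hA hp hpe hs.le hps hσ F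
    (ha₀c p hp F Q₀)
  obtain ⟨hcA, hcp, hco, hcs⟩ := colourClass_props Q c
  set S := ∑ α, colourClass Q c α * x * colourClass Q c α
  set a := (1 - 1 / (r : ℂ)) • a₀ with hadef
  set y := p * (S - a) * p - (1 / (r : ℂ)) • (p * x * p) with hydef
  have hy_eq : y = p * S * p - (1 / (r : ℂ)) • (p * x * p) - (1 - 1 / (r : ℂ)) • (p * a₀ * p) := by
    rw [hydef, hadef, mul_sub, sub_mul, mul_smul_comm, smul_mul_assoc]
    abel
  rw [← hy_eq] at hQc
  have hQc' : ‖evAt F y‖ ≤ 2 * σ := by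
    refine hQc.trans ?_
    have h1 : s * (4 * ‖x‖ * (N + 1)) = σ := by rw [hsdef]; field_simp
    nlinarith [mul_pos hs hxn]
  have hSM : S ∈ M :=
    sum_mem fun α _ => mul_mem (mul_mem (hA.1 _ (hcA α)) hxM) (hA.1 _ (hcA α))
  have haA : a ∈ A := A.smul_mem ha₀A _
  have hyM : y ∈ M := sub_mem (mul_mem (mul_mem hpM (sub_mem hSM (hA.1 a haA))) hpM)
    (M.toStarSubalgebra.smul_mem (mul_mem (mul_mem hpM hxM) hpM) _)
  obtain ⟨R, hR, hRc, hRle, hRsm, -⟩ := exists_sq_cut y hη.le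
  have hbM : star y * y ∈ M := mul_mem (star_mem hyM) hyM
  have hRM : R ∈ M := mem_vn fun z hz => hRc z (commute_commutant hbM hz)
  have hRsmall : ∀ v ∈ F, ‖R v‖ ≤ δ / 4 := fun v hv => by
    refine le_of_mul_le_mul_left ?_ hη
    refine ((hRle v).trans (norm_le_evAt F y hv)).trans (hQc'.trans_eq ?_)
    rw [hσdef]; ring
  have hRp : R * p = R := by
    ext v
    show R (p v) = R v
    have h := hRle (v - p v)
    have h0 : y (v - p v) = 0 := by
      have hyp : y * p = y := by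
        rw [hydef, sub_mul, smul_mul_assoc, mul_assoc (p * x) p p,
          mul_assoc (p * (S - a)) p p, hp.isIdempotentElem.eq]
      rw [map_sub y, apply_mul y p, hyp, sub_self]
    rw [h0, norm_zero, map_sub] at h
    have h1 : R v - R (p v) = 0 := norm_le_zero_iff.1 (nonpos_of_mul_nonpos_right h hη)
    exact (sub_eq_zero.1 h1).symm
  have hpR : p * R = R := by
    have h := congrArg star hRp
    rwa [star_mul, hR.isSelfAdjoint.star_eq, hp.isSelfAdjoint.star_eq] at h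
  set q := p - R with hq
  have hqp : IsStarProjection q := by
    refine ⟨?_, hp.isSelfAdjoint.sub hR.isSelfAdjoint⟩
    show (p - R) * (p - R) = p - R
    rw [sub_mul, mul_sub, mul_sub, hp.isIdempotentElem.eq, hpR, hRp, hR.isIdempotentElem.eq,
      sub_self, sub_zero]
  have hqe : q * e = q := by
    rw [hq, sub_mul, hpe]
    conv_lhs => rw [← hRp, mul_assoc, hpe, hRp]
  have hqp1 : q * p = q := by rw [hq, sub_mul, hp.isIdempotentElem.eq, hRp]
  have hpq1 : p * q = q := by rw [hq, mul_sub, hp.isIdempotentElem.eq, hpR]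
  refine ⟨colourClass Q c, a, q, hcA, hcp, hco, hcs, haA, ?_, ?_, ?_, sub_mem hpM hRM, hqp, hqe,
    fun v hv => ?_, ?_⟩
  · show star a = a
    rw [hadef, star_smul, ha₀s.star_eq]
    congr 1
    simp
  · rw [hadef, smul_mul_assoc, ha₀e]
  · rw [hadef, norm_smul]
    refine (mul_le_of_le_one_left (norm_nonneg _) ?_).trans ha₀n
    have e : (1 - 1 / (r : ℂ)) = ((1 - 1 / (r : ℝ) : ℝ) : ℂ) := by push_cast; ring
    rw [e, Complex.norm_real, Real.norm_of_nonneg]
    · linarith [show 0 ≤ 1 / (r : ℝ) by positivity]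
    · rw [sub_nonneg, div_le_one (by linarith)]; exact hr1
  · have h : (e - q) v = (e - p) v + R v := by
      rw [← add_apply, hq, sub_sub_eq_add_sub, sub_add_eq_add_sub]
    rw [h]
    linarith [norm_add_le ((e - p) v) (R v), hpF v hv, hRsmall v hv]
  · have hdec : q * (S - a) * q = q * y * q + (1 / (r : ℂ)) • (q * x * q) := by
      have h1 : q * (p * (S - a) * p) * q = q * (S - a) * q := by
        rw [← mul_assoc, ← mul_assoc, hqp1, mul_assoc _ p q, hpq1]
      have h2 : q * (p * x * p) * q = q * x * q := by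
        rw [← mul_assoc, ← mul_assoc, hqp1, mul_assoc _ p q, hpq1]
      rw [hydef, mul_sub q (p * (S - a) * p), sub_mul (q * (p * (S - a) * p)),
        mul_smul_comm (1 / (r : ℂ)) q (p * x * p), smul_mul_assoc, h1, h2, sub_add_cancel]
    rw [hdec]
    refine (norm_add_le _ _).trans ?_
    have hqn : ‖q‖ ≤ 1 := opNorm_le_bound _ zero_le_one fun v => by
      rw [one_mul]; exact norm_proj_apply_le hqp v
    have hq1 : q = (1 - R) * p := by rw [sub_mul, one_mul, hRp, hq]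
    have h1 : ‖q * y * q‖ ≤ η := by
      refine opNorm_le_bound _ hη.le fun v => ?_
      show ‖q (y (q v))‖ ≤ _
      refine (norm_proj_apply_le hqp _).trans ?_
      rw [show q v = (1 - R) (p v) from congrArg (fun T : H →L[ℂ] H => T v) hq1]
      refine (hRsm (p v)).trans (mul_le_mul_of_nonneg_left ?_ hη.le)
      rw [show (1 - R) (p v) = q v from (congrArg (fun T : H →L[ℂ] H => T v) hq1).symm]
      exact norm_proj_apply_le hqp v
    have h2 : ‖(1 / (r : ℂ)) • (q * x * q)‖ ≤ 1 / (r : ℝ) * ‖x‖ := by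
      rw [norm_smul]
      refine mul_le_mul (by simp) ?_ (norm_nonneg _) (by positivity)
      refine (norm_mul_le _ _).trans ((mul_le_mul ((norm_mul_le _ _).trans
        (mul_le_of_le_one_left (norm_nonneg _) hqn)) hqn (norm_nonneg _) (norm_nonneg _)).trans_eq
          (mul_one _))
    have h3 : 1 / (r : ℝ) ≤ ε / 2 := by rw [div_le_div_iff₀ (by linarith) two_pos]; linarith
    have h4 := mul_le_mul_of_nonneg_right h3 (norm_nonneg x)
    rw [hηdef] at h1
    linarith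

/-- So-paving with `⌈2/ε⌉` pieces for MASAs without central normal functionals, in any algebra. -/
theorem paving_of_noCentralNormal (hA : IsMASA M A) (hno : HasNoCentralNormal M A)
    {ε : ℝ} (hε : 0 < ε) {r : ℕ} (hr : 2 ≤ ε * r) (hxM : x ∈ M) (hxs : IsSelfAdjoint x) :
    SOPavable M A x ε r := by
  intro F δ hδ
  obtain ⟨P, a, q, hPA, hPP, hPo, hP1, ha, has, -, han, hq, hqP, -, hqF, hn⟩ :=
    sing_part_paving (e := (1 : H →L[ℂ] H)) hA (IsStarProjection.one _) (one_mem A)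
      (fun ψ hψ _ => by rw [hno ψ hψ]; rfl) hε hr hxM hxs F hδ
  exact ⟨P, a, q, ⟨hPA, hPP, hPo, hP1⟩, ha, has, han, hq, hqP, hqF, hn⟩

end Gen

end Vale.Agent.P078
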