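import Mathlib
import Vale.Agent.P078.Defs

/-!
# Central normal positive functionals, as functions of operators
-/

namespace Vale.Agent.P078

universe u

variable {H : Type u} [NormedAddCommGroup H] [InnerProductSpace ℂ H] [CompleteSpace H]

/-- `ψ` restricts to a normal positive linear functional on `M` which commutes with `A`: linear on
`M`, nonnegative at every `star x * x`, continuous at `0` on the unit ball of `M` for pointwise
convergence on vectors, and `ψ (a * x) = ψ (x * a)` for `a` in `A`. -/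
def IsCentralNormalFun (M : VonNeumannAlgebra H) (A : StarSubalgebra ℂ (H →L[ℂ] H))
    (ψ : (H →L[ℂ] H) → ℂ) : Prop :=
  (∀ x ∈ M, ∀ y ∈ M, ψ (x + y) = ψ x + ψ y) ∧
    (∀ c : ℂ, ∀ x ∈ M, ψ (c • x) = c * ψ x) ∧
    (∀ x ∈ M, 0 ≤ (ψ (star x * x)).re ∧ (ψ (star x * x)).im = 0) ∧
    (∀ ε : ℝ, 0 < ε → ∃ (F : Finset H) (δ : ℝ), 0 < δ ∧ ∀ x ∈ M,
      ‖x‖ ≤ 1 → (∀ v ∈ F, ‖x v‖ ≤ δ) → ‖ψ x‖ ≤ ε) ∧
    ∀ a ∈ A, ∀ x ∈ M, ψ (a * x) = ψ (x * a)

/-- There is a central normal functional which is faithful on `M`. -/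
def FaithfulCentralCase (M : VonNeumannAlgebra H) (A : StarSubalgebra ℂ (H →L[ℂ] H)) : Prop :=
  ∃ ψ, IsCentralNormalFun M A ψ ∧ ∀ x ∈ M, ψ (star x * x) = 0 → x = 0

/-- Every central normal functional vanishes on `M`. -/
def NoCentralCase (M : VonNeumannAlgebra H) (A : StarSubalgebra ℂ (H →L[ℂ] H)) : Prop :=
  ∀ ψ, IsCentralNormalFun M A ψ → ∀ x ∈ M, ψ x = 0

/-- Every self-adjoint element of `M` is `(ε, r)` so-pavable over `A`. -/
def SOPavableAll (M : VonNeumannAlgebra H) (A : StarSubalgebra ℂ (H →L[ℂ] H))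
    (ε : ℝ) (r : ℕ) : Prop :=
  ∀ x ∈ M, IsSelfAdjoint x → SOPavable M A x ε r

end Vale.Agent.P078
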