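import Mathlib
import Vale.Agent.P078.Gen.Spec
import Vale.Agent.P078.Gen.Defs

/-!
# The two forms of central normal functionals agree
-/

open scoped InnerProductSpace ComplexOrder

namespace Vale.Agent.P078

universe u

variable {H : Type u} [NormedAddCommGroup H] [InnerProductSpace ℂ H] [CompleteSpace H]

namespace Gen

variable {A : StarSubalgebra ℂ (H →L[ℂ] H)} {M : VonNeumannAlgebra H}

open scoped Classical in
/-- The extension by zero of a functional on `M`. -/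
noncomputable def extendFun (ψ : M.toStarSubalgebra →ₗ[ℂ] ℂ) (x : H →L[ℂ] H) : ℂ :=
  if h : x ∈ M.toStarSubalgebra then ψ ⟨x, h⟩ else 0

lemma extendFun_apply (ψ : M.toStarSubalgebra →ₗ[ℂ] ℂ) {x : H →L[ℂ] H} (hx : x ∈ M) :
    extendFun ψ x = ψ ⟨x, hx⟩ := dif_pos hx

lemma extendFun_spec (hA : ∀ a ∈ A, a ∈ M) {ψ : M.toStarSubalgebra →ₗ[ℂ] ℂ}
    (hψ : IsCentralNormal M A ψ) : IsCentralNormalFun M A (extendFun ψ) := by
  refine ⟨fun x hx y hy => ?_, fun c x hx => ?_, fun x hx => ?_, fun ε hε => ?_,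
    fun a ha x hx => ?_⟩
  · rw [extendFun_apply ψ hx, extendFun_apply ψ hy, extendFun_apply ψ (add_mem hx hy), ← map_add]
    rfl
  · rw [extendFun_apply ψ hx, extendFun_apply ψ (M.toStarSubalgebra.smul_mem hx c),
      ← smul_eq_mul, ← map_smul]
    rfl
  · rw [extendFun_apply ψ (mul_mem (star_mem hx) hx)]
    obtain ⟨h1, h2⟩ := Complex.nonneg_iff.1 (hψ.1 ⟨x, hx⟩)
    exact ⟨h1, h2.symm⟩
  · obtain ⟨F, δ, hδ, h⟩ := hψ.2.1 ε hε
    exact ⟨F, δ, hδ, fun x hx hn hs => by rw [extendFun_apply ψ hx]; exact h ⟨x, hx⟩ hn hs⟩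
  · rw [extendFun_apply ψ (mul_mem (hA a ha) hx), extendFun_apply ψ (mul_mem hx (hA a ha))]
    exact hψ.2.2 ⟨a, hA a ha⟩ ⟨x, hx⟩ ha

lemma noCentral_of_fun (hA : ∀ a ∈ A, a ∈ M) (h : NoCentralCase M A) :
    HasNoCentralNormal M A := fun ψ hψ => by
  refine LinearMap.ext fun x => ?_
  have := h _ (extendFun_spec hA hψ) x x.2
  rwa [extendFun_apply ψ x.2] at this

lemma faithful_to_fun (hA : ∀ a ∈ A, a ∈ M) (h : HasFaithfulCentralNormal M A) :
    FaithfulCentralCase M A := by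
  obtain ⟨ψ, hψ, hf⟩ := h
  refine ⟨extendFun ψ, extendFun_spec hA hψ, fun x hx h0 => ?_⟩
  rw [extendFun_apply ψ (mul_mem (star_mem hx) hx)] at h0
  exact congrArg Subtype.val (hf ⟨x, hx⟩ h0)

end Gen

end Vale.Agent.P078
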