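import Mathlib
import Vale.Agent.P078.FinalVN
import Vale.Agent.P078.Gen.Defs
import Vale.Agent.P078.Gen.GNS
import Vale.Agent.P078.Semi.Spectral

/-!
# Supports of central normal functionals
-/

open scoped InnerProductSpace ComplexOrder
open ContinuousLinearMap

namespace Vale.Agent.P078

universe u

variable {H : Type u} [NormedAddCommGroup H] [InnerProductSpace ℂ H] [CompleteSpace H]

namespace Gen

open Semi

variable {A : StarSubalgebra ℂ (H →L[ℂ] H)} {M : VonNeumannAlgebra H}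

/-- A projection of `A` carrying a central normal functional which is faithful on `M f`. -/
def IsSuppProj (M : VonNeumannAlgebra H) (A : StarSubalgebra ℂ (H →L[ℂ] H)) (f : H →L[ℂ] H) :
    Prop :=
  f ∈ A ∧ IsStarProjection f ∧ ∃ ψ, IsCentralNormal M A ψ ∧
    ∀ x : M.toStarSubalgebra, (x : H →L[ℂ] H) * f = x → ψ (star x * x) = 0 → x = 0

lemma psi_nonneg {ψ : M.toStarSubalgebra →ₗ[ℂ] ℂ} (hψ : ∀ x, 0 ≤ ψ (star x * x))
    {x : M.toStarSubalgebra} (hx : 0 ≤ (x : H →L[ℂ] H)) : 0 ≤ ψ x := by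
  set g : H →L[ℂ] H := CFC.sqrt (x : H →L[ℂ] H)
  have hgs : IsSelfAdjoint g := IsSelfAdjoint.of_nonneg (CFC.sqrt_nonneg _)
  have hgM : g ∈ M := mem_vn fun y hy =>
    (show Commute g y by
      simp only [g, CFC.sqrt_eq_real_sqrt _ hx]
      exact ((commute_commutant x.2 hy).symm).cfcₙ_real _).symm
  have e : x = star (⟨g, hgM⟩ : M.toStarSubalgebra) * ⟨g, hgM⟩ := Subtype.ext (by
    show (x : H →L[ℂ] H) = star g * g
    rw [hgs.star_eq]
    exact (CFC.sqrt_mul_sqrt_self (x : H →L[ℂ] H) hx).symm)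
  rw [e]
  exact hψ _

/-- Cauchy–Schwarz at a null element. -/
lemma psi_null {ψ : M.toStarSubalgebra →ₗ[ℂ] ℂ} (hψ : ∀ x, 0 ≤ ψ (star x * x))
    {x : M.toStarSubalgebra} (hx : ψ (star x * x) = 0) (y : M.toStarSubalgebra) :
    ψ (star x * y) = 0 := by
  let φ : M.toStarSubalgebra →ₚ[ℂ] ℂ := PositiveLinearMap.mk₀ ψ fun z hz => by
    obtain ⟨s, rfl⟩ := CStarAlgebra.nonneg_iff_eq_star_mul_self.1 hz
    exact hψ s
  have h0 : gvec φ x = 0 := by
    have h := norm_sq_gvec φ x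
    rw [show φ (star x * x) = 0 from hx, Complex.zero_re] at h
    simpa using h
  have h := inner_gvec φ x y
  rw [h0, inner_zero_left] at h
  exact h.symm

lemma isSuppProj_zero : IsSuppProj M A 0 :=
  ⟨zero_mem A, IsStarProjection.zero _, 0,
    ⟨fun _ => le_rfl, fun ε hε => ⟨∅, 1, one_pos, fun x _ _ => by simpa using hε.le⟩,
      fun _ _ _ => rfl⟩,
    fun x hx _ => Subtype.ext (by rw [← hx, mul_zero]; rfl)⟩

/-- The functional compressed to a projection of `A`. -/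
noncomputable def compressFun (ψ : M.toStarSubalgebra →ₗ[ℂ] ℂ) (f : M.toStarSubalgebra) :
    M.toStarSubalgebra →ₗ[ℂ] ℂ where
  toFun x := ψ (f * x * f)
  map_add' x y := by rw [mul_add, add_mul, map_add]
  map_smul' c x := by rw [mul_smul_comm, smul_mul_assoc, map_smul]; rfl

lemma isCentralNormal_compress (hA : IsMASA M A) {ψ : M.toStarSubalgebra →ₗ[ℂ] ℂ}
    (hψ : IsCentralNormal M A ψ) {f : H →L[ℂ] H} (hfA : f ∈ A) (hf : IsStarProjection f) :
    IsCentralNormal M A (compressFun ψ ⟨f, hA.1 f hfA⟩) := by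
  classical
  set f' : M.toStarSubalgebra := ⟨f, hA.1 f hfA⟩
  refine ⟨fun x => ?_, fun ε hε => ?_, fun a x ha => ?_⟩
  · show 0 ≤ ψ (f' * (star x * x) * f')
    have e : f' * (star x * x) * f' = star (x * f') * (x * f') := by
      rw [star_mul, show star f' = f' from Subtype.ext hf.isSelfAdjoint.star_eq]
      noncomm_ring
    rw [e]
    exact hψ.1 _
  · obtain ⟨F, δ, hδ, h⟩ := hψ.2.1 ε hε
    refine ⟨F.image fun v => f v, δ, hδ, fun x hx hs => h _ ?_ fun v hv => ?_⟩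
    · refine opNorm_le_bound _ zero_le_one fun v => ?_
      rw [one_mul]
      exact (norm_proj_apply_le hf _).trans ((((x : H →L[ℂ] H).le_opNorm _).trans
        (mul_le_of_le_one_left (norm_nonneg _) hx)).trans (norm_proj_apply_le hf v))
    · exact (norm_proj_apply_le hf _).trans (hs _ (Finset.mem_image_of_mem _ hv))
  · show ψ (f' * (a * x) * f') = ψ (f' * (x * a) * f')
    have hc : f' * a = a * f' := Subtype.ext (hA.2.1 _ hfA _ ha)
    have e1 : f' * (a * x) * f' = a * (f' * x * f') := by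
      rw [← mul_assoc f' a x, hc]; noncomm_ring
    have e2 : f' * (x * a) * f' = f' * x * f' * a := by
      rw [mul_assoc f', mul_assoc x a f', ← hc]; noncomm_ring
    rw [e1, e2]
    exact hψ.2.2 _ _ ha

lemma isCentralNormal_add {ψ χ : M.toStarSubalgebra →ₗ[ℂ] ℂ} (hψ : IsCentralNormal M A ψ)
    (hχ : IsCentralNormal M A χ) : IsCentralNormal M A (ψ + χ) := by
  classical
  refine ⟨fun x => add_nonneg (hψ.1 x) (hχ.1 x), fun ε hε => ?_, fun a x ha => ?_⟩
  · obtain ⟨F, δ, hδ, h⟩ := hψ.2.1 (ε / 2) (half_pos hε)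
    obtain ⟨G, γ, hγ, h'⟩ := hχ.2.1 (ε / 2) (half_pos hε)
    refine ⟨F ∪ G, min δ γ, lt_min hδ hγ, fun x hx hs => ?_⟩
    refine (norm_add_le _ _).trans ?_
    linarith [h x hx fun v hv => (hs v (Finset.mem_union_left _ hv)).trans (min_le_left _ _),
      h' x hx fun v hv => (hs v (Finset.mem_union_right _ hv)).trans (min_le_right _ _)]
  · simp only [LinearMap.add_apply, hψ.2.2 a x ha, hχ.2.2 a x ha]

lemma exists_supp_upper (hA : IsMASA M A) {f g : H →L[ℂ] H} (hf : IsSuppProj M A f)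
    (hg : IsSuppProj M A g) : ∃ j, IsSuppProj M A j ∧ j * f = f ∧ j * g = g := by
  obtain ⟨hfA, hfp, ψ, hψ, hψf⟩ := hf
  obtain ⟨hgA, hgp, χ, hχ, hχg⟩ := hg
  have hc : f * g = g * f := hA.2.1 _ hfA _ hgA
  have hff : f * f = f := hfp.isIdempotentElem.eq
  have hgg : g * g = g := hgp.isIdempotentElem.eq
  have e1 : (1 - f) * g * f = 0 := by
    rw [mul_assoc, ← hc, ← mul_assoc, sub_mul, one_mul, hff, sub_self, zero_mul]
  set j := f + (1 - f) * g with hj
  have hjf : j * f = f := by rw [hj, add_mul, hff, e1, add_zero]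
  have hjg : j * g = g := by
    rw [hj, add_mul, mul_assoc, hgg, sub_mul, one_mul, add_sub_cancel]
  have hjA : j ∈ A := add_mem hfA (mul_mem (sub_mem (one_mem A) hfA) hgA)
  have hjp : IsStarProjection j := by
    refine ⟨?_, ?_⟩
    · show j * j = j
      have h1 : j * ((1 - f) * g) = (1 - f) * g := by
        rw [sub_mul, one_mul, mul_sub, ← mul_assoc, hjf, hjg]
      conv_lhs => arg 2; rw [hj]
      rw [mul_add, hjf, h1]
    · show star j = j
      rw [hj, star_add, star_mul, star_sub, star_one, hfp.isSelfAdjoint.star_eq,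
        hgp.isSelfAdjoint.star_eq, mul_sub, mul_one, sub_mul, one_mul, hc]
  set f' : M.toStarSubalgebra := ⟨f, hA.1 f hfA⟩ with hf'
  set g' : M.toStarSubalgebra := ⟨g, hA.1 g hgA⟩ with hg'
  refine ⟨j, ⟨hjA, hjp, compressFun ψ f' + compressFun χ g',
    isCentralNormal_add (isCentralNormal_compress hA hψ hfA hfp)
      (isCentralNormal_compress hA hχ hgA hgp), fun x hxj h0 => ?_⟩, hjf, hjg⟩
  have hp1 : 0 ≤ compressFun ψ f' (star x * x) := (isCentralNormal_compress hA hψ hfA hfp).1 x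
  have hp2 : 0 ≤ compressFun χ g' (star x * x) := (isCentralNormal_compress hA hχ hgA hgp).1 x
  obtain ⟨h1, h2⟩ := (add_eq_zero_iff_of_nonneg hp1 hp2).1 h0
  have hzero : ∀ (θ : M.toStarSubalgebra →ₗ[ℂ] ℂ) (k : M.toStarSubalgebra),
      IsStarProjection (k : H →L[ℂ] H) →
      (∀ y : M.toStarSubalgebra, (y : H →L[ℂ] H) * k = y → θ (star y * y) = 0 → y = 0) →
      compressFun θ k (star x * x) = 0 → x * k = 0 := by
    intro θ k hk hfaith h
    refine hfaith _ ?_ ?_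
    · show (x : H →L[ℂ] H) * k * k = (x : H →L[ℂ] H) * k
      rw [mul_assoc, hk.isIdempotentElem.eq]
    · rw [← h]
      show θ _ = θ (k * (star x * x) * k)
      congr 1
      rw [star_mul, show star k = k from Subtype.ext hk.isSelfAdjoint.star_eq]
      noncomm_ring
  have hxf : (x : H →L[ℂ] H) * f = 0 := congrArg Subtype.val (hzero ψ f' hfp hψf h1)
  have hxg : (x : H →L[ℂ] H) * g = 0 := congrArg Subtype.val (hzero χ g' hgp hχg h2)
  refine Subtype.ext ?_
  rw [← hxj, hj, mul_add, sub_mul, one_mul, mul_sub, ← mul_assoc, hxf, hxg, zero_mul, sub_zero,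
    add_zero]
  rfl

/-- The vectors killed by the null elements of `ψ`. -/
def suppSub (ψ : M.toStarSubalgebra →ₗ[ℂ] ℂ) : Submodule ℂ H :=
  ⨅ x : {x : M.toStarSubalgebra // ψ (star x * x) = 0}, ((x.1 : H →L[ℂ] H).ker)

lemma mem_suppSub {ψ : M.toStarSubalgebra →ₗ[ℂ] ℂ} {v : H} :
    v ∈ suppSub ψ ↔ ∀ x : M.toStarSubalgebra, ψ (star x * x) = 0 → (x : H →L[ℂ] H) v = 0 := by
  simp only [suppSub, Submodule.mem_iInf, Subtype.forall]
  rfl

lemma isClosed_suppSub (ψ : M.toStarSubalgebra →ₗ[ℂ] ℂ) : IsClosed (suppSub ψ : Set H) := by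
  rw [suppSub, Submodule.coe_iInf]
  exact isClosed_iInter fun x => (x.1 : H →L[ℂ] H).isClosed_ker

noncomputable instance completeSpace_suppSub (ψ : M.toStarSubalgebra →ₗ[ℂ] ℂ) :
    CompleteSpace (suppSub ψ) := (isClosed_suppSub ψ).completeSpace_coe

/-- The support of a central normal functional. -/
noncomputable def suppOf (ψ : M.toStarSubalgebra →ₗ[ℂ] ℂ) : H →L[ℂ] H :=
  (suppSub ψ).starProjection

theorem isSuppProj_suppOf (hA : IsMASA M A) {ψ : M.toStarSubalgebra →ₗ[ℂ] ℂ}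
    (hψ : IsCentralNormal M A ψ) :
    IsSuppProj M A (suppOf ψ) ∧
      ∀ x : M.toStarSubalgebra, ψ (star x * x) = 0 → (x : H →L[ℂ] H) * suppOf ψ = 0 := by
  have hs : IsStarProjection (suppOf ψ) := isStarProjection_starProjection
  have hkill : ∀ x : M.toStarSubalgebra, ψ (star x * x) = 0 →
      (x : H →L[ℂ] H) * suppOf ψ = 0 := fun x hx =>
    ext fun v => mem_suppSub.1 (Submodule.starProjection_apply_mem _ v) x hx
  have hM : suppOf ψ ∈ M := mem_vn fun y hy => by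
    refine commute_starProjection_of_invariant _ (fun v hv => ?_) (fun v hv => ?_)
    · refine mem_suppSub.2 fun x hx => ?_
      rw [apply_mul, ← (commute_commutant x.2 hy).eq]
      show y ((x : H →L[ℂ] H) v) = 0
      rw [mem_suppSub.1 hv x hx, map_zero]
    · refine mem_suppSub.2 fun x hx => ?_
      rw [apply_mul, ← (commute_commutant x.2 (star_mem hy)).eq]
      show star y ((x : H →L[ℂ] H) v) = 0
      rw [mem_suppSub.1 hv x hx, map_zero]
  have hinv : ∀ a : M.toStarSubalgebra, (a : H →L[ℂ] H) ∈ A → ∀ v ∈ suppSub ψ,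
      (a : H →L[ℂ] H) v ∈ suppSub ψ := fun a ha v hv => by
    refine mem_suppSub.2 fun x hx => mem_suppSub.1 hv (x * a) ?_
    rw [star_mul, mul_assoc, hψ.2.2 (star a) _ (star_mem ha : star (a : H →L[ℂ] H) ∈ A), mul_assoc,
      mul_assoc]
    exact psi_null hψ.1 hx _
  have hA' : suppOf ψ ∈ A := hA.2.2 _ hM fun a ha =>
    (commute_starProjection_of_invariant _ (hinv ⟨a, hA.1 a ha⟩ ha)
      (hinv ⟨star a, star_mem (hA.1 a ha)⟩ (star_mem ha))).eq
  exact ⟨⟨hA', hs, ψ, hψ, fun x hx h0 => Subtype.ext (by rw [← hx, hkill x h0]; rfl)⟩, hkill⟩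

/-- If the support vanishes then the functional vanishes. -/
theorem eq_zero_of_suppOf {ψ : M.toStarSubalgebra →ₗ[ℂ] ℂ} (hψ : IsCentralNormal M A ψ)
    (h0 : suppOf ψ = 0) : ψ 1 = 0 := by
  classical
  -- vectors dominated by a null positive element
  let G : Submodule ℂ H :=
    { carrier := {v | ∃ (b : M.toStarSubalgebra) (C : ℝ), 0 ≤ C ∧ 0 ≤ (b : H →L[ℂ] H) ∧ ψ b = 0 ∧
        ∀ u, ‖⟪v, u⟫_ℂ‖ ^ 2 ≤ C * (⟪u, (b : H →L[ℂ] H) u⟫_ℂ).re}
      zero_mem' := ⟨0, 0, le_rfl, le_rfl, map_zero ψ, fun u => by simp⟩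
      add_mem' := by
        rintro v w ⟨b, C, hC, hb, hbψ, hv⟩ ⟨c, D, hD, hc, hcψ, hw⟩
        refine ⟨b + c, 2 * (C + D), by positivity, add_nonneg hb hc,
          by rw [map_add, hbψ, hcψ, add_zero], fun u => ?_⟩
        have hb' := Semi.re_inner_nonneg hb u
        have hc' := Semi.re_inner_nonneg hc u
        show _ ≤ 2 * (C + D) * (⟪u, (b : H →L[ℂ] H) u + (c : H →L[ℂ] H) u⟫_ℂ).re
        rw [inner_add_right, Complex.add_re, inner_add_left]
        have h1 := pow_le_pow_left₀ (norm_nonneg _) (norm_add_le ⟪v, u⟫_ℂ ⟪w, u⟫_ℂ) 2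
        nlinarith [hv u, hw u, sq_nonneg (‖⟪v, u⟫_ℂ‖ - ‖⟪w, u⟫_ℂ‖), mul_nonneg hC hc',
          mul_nonneg hD hb']
      smul_mem' := by
        rintro z v ⟨b, C, hC, hb, hbψ, hv⟩
        refine ⟨b, ‖z‖ ^ 2 * C, by positivity, hb, hbψ, fun u => ?_⟩
        rw [inner_smul_left, norm_mul, RCLike.norm_conj, mul_pow, mul_assoc]
        exact mul_le_mul_of_nonneg_left (hv u) (sq_nonneg _) }
  have hgen : ∀ x : M.toStarSubalgebra, ψ (star x * x) = 0 → ∀ w,
      star (x : H →L[ℂ] H) w ∈ G := fun x hx w => by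
    refine ⟨star x * x, ‖w‖ ^ 2, sq_nonneg _, star_mul_self_nonneg (x : H →L[ℂ] H), hx,
      fun u => ?_⟩
    have e : (⟪u, (star (x : H →L[ℂ] H) * (x : H →L[ℂ] H)) u⟫_ℂ).re = ‖(x : H →L[ℂ] H) u‖ ^ 2 := by
      rw [star_eq_adjoint]
      show (⟪u, adjoint (x : H →L[ℂ] H) ((x : H →L[ℂ] H) u)⟫_ℂ).re = _
      rw [adjoint_inner_right]
      exact inner_self_eq_norm_sq (𝕜 := ℂ) _
    show _ ≤ ‖w‖ ^ 2 * (⟪u, (star (x : H →L[ℂ] H) * (x : H →L[ℂ] H)) u⟫_ℂ).re
    rw [e, ← mul_pow, star_eq_adjoint, adjoint_inner_left]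
    exact pow_le_pow_left₀ (norm_nonneg _) (norm_inner_le_norm _ _) 2
  have hdense : G.topologicalClosure = ⊤ := by
    rw [Submodule.topologicalClosure_eq_top_iff, Submodule.eq_bot_iff]
    intro u hu
    have hmem : u ∈ suppSub ψ := mem_suppSub.2 fun x hx => by
      refine ext_inner_left ℂ fun w => ?_
      rw [inner_zero_right, ← adjoint_inner_left, ← star_eq_adjoint]
      exact hu _ (hgen x hx w)
    have h := congrArg (fun T : H →L[ℂ] H => T u) h0
    simp only [suppOf, Submodule.starProjection_eq_self_iff.2 hmem] at h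
    exact h
  refine norm_le_zero_iff.1 (le_of_forall_pos_le_add fun ε hε => ?_)
  rw [zero_add]
  obtain ⟨F, δ, hδ, hF⟩ := hψ.2.1 ε hε
  have happ : ∀ F : Finset H, ∃ (b : M.toStarSubalgebra) (C : ℝ), 0 ≤ C ∧
      0 ≤ (b : H →L[ℂ] H) ∧ ψ b = 0 ∧
      ∀ v ∈ F, ∃ v', ‖v - v'‖ ≤ δ / 2 ∧ ∀ u, ‖⟪v', u⟫_ℂ‖ ^ 2 ≤ C * (⟪u, (b : H →L[ℂ] H) u⟫_ℂ).re := by
    intro F
    induction F using Finset.induction_on with
    | empty => exact ⟨0, 0, le_rfl, le_rfl, map_zero ψ, by simp⟩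
    | insert v F _ ih =>
      obtain ⟨b, C, hC, hb, hbψ, hF⟩ := ih
      have hv : v ∈ closure (G : Set H) := by
        rw [← Submodule.topologicalClosure_coe, hdense]; trivial
      obtain ⟨v', ⟨c, D, hD, hc, hcψ, hv'⟩, hd⟩ := Metric.mem_closure_iff.1 hv (δ / 2) (half_pos hδ)
      refine ⟨b + c, C + D, add_nonneg hC hD, add_nonneg hb hc,
        by rw [map_add, hbψ, hcψ, add_zero], fun u hu => ?_⟩
      rcases Finset.mem_insert.1 hu with rfl | hu
      · refine ⟨v', by rw [← dist_eq_norm]; exact hd.le, fun w => (hv' w).trans ?_⟩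
        show _ ≤ (C + D) * (⟪w, (b : H →L[ℂ] H) w + (c : H →L[ℂ] H) w⟫_ℂ).re
        rw [inner_add_right, Complex.add_re]
        nlinarith [Semi.re_inner_nonneg hb w, Semi.re_inner_nonneg hc w,
          mul_nonneg hC (Semi.re_inner_nonneg hc w), mul_nonneg hC (Semi.re_inner_nonneg hb w),
          mul_nonneg hD (Semi.re_inner_nonneg hb w)]
      · obtain ⟨u', h1, h2⟩ := hF u hu
        refine ⟨u', h1, fun w => (h2 w).trans ?_⟩
        show _ ≤ (C + D) * (⟪w, (b : H →L[ℂ] H) w + (c : H →L[ℂ] H) w⟫_ℂ).re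
        rw [inner_add_right, Complex.add_re]
        nlinarith [mul_nonneg hC (Semi.re_inner_nonneg hc w),
          mul_nonneg hD (Semi.re_inner_nonneg hb w), mul_nonneg hD (Semi.re_inner_nonneg hc w)]
  obtain ⟨b, C, hC, hb, hbψ, hFb⟩ := happ F
  set η := (δ / 2) ^ 2 / (C + 1) with hηdef
  have hη : 0 < η := by positivity
  have hbs : IsSelfAdjoint (b : H →L[ℂ] H) := IsSelfAdjoint.of_nonneg hb
  set P : M.toStarSubalgebra := ⟨cut (b : H →L[ℂ] H) η, cut_mem hbs b.2 η⟩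
  have hP : IsStarProjection (P : H →L[ℂ] H) := cut_isStarProjection _ _
  have hc : Commute (P : H →L[ℂ] H) (b : H →L[ℂ] H) :=
    (commute_cut hbs η (Commute.refl (b : H →L[ℂ] H))).symm
  have hψP : ψ P = 0 := by
    have h1 : 0 ≤ ψ (b * P - (η : ℂ) • P) := psi_nonneg hψ.1 (by
      show 0 ≤ (b : H →L[ℂ] H) * P - (η : ℂ) • (P : H →L[ℂ] H)
      have := sub_mul_cut hbs η
      rw [sub_mul, smul_mul_assoc, one_mul, ← Complex.coe_smul] at this
      rw [this]
      exact CFC.posPart_nonneg _)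
    have h2 : 0 ≤ ψ (b - b * P) := psi_nonneg hψ.1 (by
      show 0 ≤ (b : H →L[ℂ] H) - (b : H →L[ℂ] H) * P
      have e : (b : H →L[ℂ] H) - (b : H →L[ℂ] H) * P
          = (1 - (P : H →L[ℂ] H)) * b * (1 - (P : H →L[ℂ] H)) := by
        rw [sub_mul, one_mul, mul_sub, mul_one, sub_mul, hc.eq, mul_assoc _ (P : H →L[ℂ] H),
          hP.isIdempotentElem.eq]
        abel
      rw [e]
      exact hP.one_sub.isSelfAdjoint.conjugate_nonneg hb)
    have h3 : 0 ≤ ψ P := psi_nonneg hψ.1 hP.nonneg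
    rw [map_sub, map_smul, smul_eq_mul] at h1
    rw [map_sub, hbψ] at h2
    rw [Complex.nonneg_iff] at h1 h2 h3
    simp only [Complex.sub_re, Complex.sub_im, Complex.mul_re, Complex.mul_im, Complex.ofReal_re,
      Complex.ofReal_im, zero_mul, sub_zero, add_zero, Complex.zero_re, Complex.zero_im] at h1 h2
    refine Complex.ext ?_ h3.2.symm
    rw [Complex.zero_re]
    nlinarith [h3.1]
  have hsmall : ‖ψ (1 - P)‖ ≤ ε := by
    refine hF _ (opNorm_le_bound _ zero_le_one fun v => ?_) fun v hv => ?_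
    · rw [one_mul]; exact norm_proj_apply_le hP.one_sub v
    · obtain ⟨v', h1, h2⟩ := hFb v hv
      show ‖(1 - (P : H →L[ℂ] H)) v‖ ≤ δ
      set w := (1 - (P : H →L[ℂ] H)) v' with hw
      have hwq := re_inner_one_sub_cut_nonpos hbs η (cut_one_sub_apply (b : H →L[ℂ] H) η v')
      have hwv : ⟪v', w⟫_ℂ = ⟪w, w⟫_ℂ := by
        rw [hw, proj_inner hP.one_sub, apply_mul (1 - (P : H →L[ℂ] H)) (1 - (P : H →L[ℂ] H)),
          hP.one_sub.isIdempotentElem.eq]
      have h3 : ‖w‖ ^ 2 ^ 1 ≤ δ / 2 * ‖w‖ ^ 1 := by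
        have h4 := h2 w
        rw [hwv, inner_self_eq_norm_sq_to_K] at h4
        simp only [Complex.coe_algebraMap, norm_pow, Complex.norm_real,
          Real.norm_of_nonneg (norm_nonneg w)] at h4
        have h5 : C * (⟪w, (b : H →L[ℂ] H) w⟫_ℂ).re ≤ C * (η * ‖w‖ ^ 2) :=
          mul_le_mul_of_nonneg_left hwq hC
        have h6 : C * η ≤ (δ / 2) ^ 2 := by
          rw [hηdef, mul_div_assoc', div_le_iff₀ (by positivity)]
          nlinarith [sq_nonneg (δ / 2)]
        have h7 : (‖w‖ ^ 2) ^ 2 ≤ (δ / 2 * ‖w‖) ^ 2 := by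
          nlinarith [mul_le_mul_of_nonneg_right h6 (sq_nonneg ‖w‖)]
        simpa using le_of_pow_le_pow_left₀ two_ne_zero (by positivity) h7
      have h8 : ‖w‖ ≤ δ / 2 := by
        rcases eq_or_lt_of_le (norm_nonneg w) with h | h
        · rw [← h]; positivity
        · simp only [pow_one] at h3
          exact le_of_mul_le_mul_right (by rw [← sq]; exact h3) h
      have h9 : (1 - (P : H →L[ℂ] H)) v = (1 - (P : H →L[ℂ] H)) (v - v') + w := by
        rw [hw, map_sub, sub_add_cancel]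
      rw [h9]
      linarith [norm_add_le ((1 - (P : H →L[ℂ] H)) (v - v')) w,
        norm_proj_apply_le hP.one_sub (v - v')]
  rw [map_sub, hψP, sub_zero] at hsmall
  exact hsmall

end Gen

end Vale.Agent.P078
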