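import Mathlib
import Vale.Agent.P078.Semi.Main
import Vale.Agent.P078.Gen.SingPart
import Vale.Agent.P078.Gen.Support

/-!
# The two parts of an arbitrary MASA
-/

open scoped InnerProductSpace ComplexOrder
open ContinuousLinearMap

namespace Vale.Agent.P078

universe u

variable {H : Type u} [NormedAddCommGroup H] [InnerProductSpace ℂ H] [CompleteSpace H]

namespace Gen

open Semi

variable {A : StarSubalgebra ℂ (H →L[ℂ] H)} {M : VonNeumannAlgebra H}

/-- The vectors fixed by some support projection. -/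
def suppSpan (hA : IsMASA M A) : Submodule ℂ H where
  carrier := {v | ∃ f, IsSuppProj M A f ∧ f v = v}
  zero_mem' := ⟨0, isSuppProj_zero, by simp⟩
  add_mem' := by
    rintro v w ⟨f, hf, hfv⟩ ⟨g, hg, hgw⟩
    obtain ⟨j, hj, hjf, hjg⟩ := exists_supp_upper hA hf hg
    refine ⟨j, hj, ?_⟩
    have h1 : j v = v := by
      have e := congrArg (fun T : H →L[ℂ] H => T v) hjf
      simpa [hfv] using e
    have h2 : j w = w := by
      have e := congrArg (fun T : H →L[ℂ] H => T w) hjg
      simpa [hgw] using e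
    rw [map_add, h1, h2]
  smul_mem' := by
    rintro c v ⟨f, hf, hfv⟩
    exact ⟨f, hf, by rw [map_smul, hfv]⟩

lemma suppSpan_invariant (hA : IsMASA M A) {y : H →L[ℂ] H} (hy : ∀ f ∈ A, f * y = y * f) {v : H}
    (hv : v ∈ (suppSpan hA).topologicalClosure) : y v ∈ (suppSpan hA).topologicalClosure := by
  have h : Set.MapsTo y (suppSpan hA : Set H) (suppSpan hA : Set H) := by
    rintro w ⟨f, hf, hfw⟩
    refine ⟨f, hf, ?_⟩
    have e := congrArg (fun T : H →L[ℂ] H => T w) (hy f hf.1)
    simpa [hfw] using e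
  rw [← SetLike.mem_coe, Submodule.topologicalClosure_coe] at hv ⊢
  exact h.closure y.continuous hv

theorem exists_supp_cover (hA : IsMASA M A) :
    ∃ z ∈ A, IsStarProjection z ∧ (∀ f, IsSuppProj M A f → f * z = f) ∧
      ∀ (F : Finset H) (δ : ℝ), 0 < δ → ∃ f, IsSuppProj M A f ∧ ∀ v ∈ F, ‖(z - f) v‖ < δ := by
  set Z := (suppSpan hA).topologicalClosure with hZ
  set z := Z.starProjection with hz
  have hzP : IsStarProjection z := isStarProjection_starProjection
  have hzM : z ∈ M := by
    rw [VonNeumannAlgebra.IsStarProjection.mem_iff hzP]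
    intro y hy
    rw [Submodule.range_starProjection, Module.End.mem_invtSubmodule]
    intro v hv
    exact suppSpan_invariant hA
      (fun f hf => VonNeumannAlgebra.mem_commutant_iff.1 hy f (hA.1 f hf)) hv
  have hza : ∀ a ∈ A, z * a * z = a * z := fun a ha => by
    ext v
    exact Submodule.starProjection_eq_self_iff.2
      (suppSpan_invariant hA (fun f hf => hA.2.1 f hf a ha)
        (Submodule.starProjection_apply_mem Z v))
  have hzA : z ∈ A := hA.2.2 z hzM fun a ha => by
    have h := congrArg star (hza (star a) (star_mem ha))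
    rw [star_mul, star_mul, star_mul, star_star, hzP.isSelfAdjoint.star_eq, ← mul_assoc] at h
    rw [← hza a ha, h]
  have hzf : ∀ f, IsSuppProj M A f → z * f = f := fun f hf => by
    ext v
    exact Submodule.starProjection_eq_self_iff.2 (Submodule.le_topologicalClosure _
      ⟨f, hf, congrArg (fun T : H →L[ℂ] H => T v) hf.2.1.isIdempotentElem.eq⟩)
  have hfz : ∀ f, IsSuppProj M A f → f * z = f := fun f hf => by
    rw [hA.2.1 f hf.1 z hzA, hzf f hf]
  refine ⟨z, hzA, hzP, hfz, fun F δ hδ => ?_⟩
  classical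
  induction F using Finset.induction_on with
  | empty => exact ⟨0, isSuppProj_zero, by simp⟩
  | insert v F _ ih =>
    obtain ⟨f, hf, hfF⟩ := ih
    have hzv : z v ∈ closure (suppSpan hA : Set H) := by
      rw [← Submodule.topologicalClosure_coe]
      exact Submodule.starProjection_apply_mem Z v
    obtain ⟨w, ⟨g, hg, hgw⟩, hd⟩ := Metric.mem_closure_iff.1 hzv (δ / 2) (half_pos hδ)
    obtain ⟨j, hj, hjf, hjg⟩ := exists_supp_upper hA hf hg
    refine ⟨j, hj, fun u hu => ?_⟩
    rcases Finset.mem_insert.1 hu with rfl | hu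
    · have hjw : j w = w := by
        have e := congrArg (fun T : H →L[ℂ] H => T w) hjg
        simpa [hgw] using e
      have e : (z - j) u = (z u - w) - j (z u - w) := by
        have e' : j (z u) = j u := congrArg (fun T : H →L[ℂ] H => T u) (hfz j hj)
        simp [map_sub, hjw, e']
      rw [dist_eq_norm] at hd
      rw [e]
      linarith [norm_sub_le (z u - w) (j (z u - w)), norm_proj_apply_le hj.2.1 (z u - w)]
    · refine lt_of_le_of_lt ?_ (hfF u hu)
      have e : (1 - j) * (z - f) = z - j := by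
        rw [sub_mul, one_mul, mul_sub, hfz j hj, hjf]
        abel
      rw [← e]
      exact norm_proj_apply_le hj.2.1.one_sub _

/-- A central normal functional which is faithful on `M f` gives one on the corner at `f`. -/
lemma hasFaithful_corner (hA : IsMASA M A) (U : Submodule ℂ H) [CompleteSpace U]
    (hU : U.starProjection ∈ A) (hf : IsSuppProj M A U.starProjection) :
    HasFaithfulCentralNormal (Corner.cornerAlg U M) (Corner.cornerMASA U A hU) := by
  classical
  obtain ⟨-, -, ψ, hψ, hfaith⟩ := hf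
  have hUM := hA.1 _ hU
  let up' : (Corner.cornerAlg U M).toStarSubalgebra → M.toStarSubalgebra := fun S =>
    ⟨Corner.up U S, (Corner.mem_cornerAlg U hUM).1 S.2⟩
  have hmul : ∀ S T, up' (S * T) = up' S * up' T := fun S T => Subtype.ext (Corner.up_mul U _ _)
  have hstar : ∀ S, up' (star S) = star (up' S) := fun S => Subtype.ext (Corner.up_star U _)
  let θ : (Corner.cornerAlg U M).toStarSubalgebra →ₗ[ℂ] ℂ :=
    { toFun := fun S => ψ (up' S)
      map_add' := fun S T => by
        rw [show up' (S + T) = up' S + up' T from Subtype.ext (Corner.up_add U _ _), map_add]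
      map_smul' := fun c S => by
        rw [show up' (c • S) = c • up' S from Subtype.ext (Corner.up_smul U c _), map_smul]
        rfl }
  refine ⟨θ, ⟨fun S => ?_, fun ε hε => ?_, fun a S ha => ?_⟩, fun S h => ?_⟩
  · show 0 ≤ ψ _
    rw [hmul, hstar]
    exact hψ.1 _
  · obtain ⟨F, δ, hδ, h⟩ := hψ.2.1 ε hε
    refine ⟨F.image U.orthogonalProjectionOnto, δ, hδ, fun S hS hs => h (up' S)
      ((Corner.norm_up_le U _).trans hS) fun v hv => ?_⟩
    exact hs _ (Finset.mem_image_of_mem _ hv)
  · show ψ (up' (a * S)) = ψ (up' (S * a))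
    rw [hmul, hmul]
    exact hψ.2.2 (up' a) (up' S) ha
  · have h' : ψ (star (up' S) * up' S) = 0 := by rw [← hstar, ← hmul]; exact h
    have h0 := congrArg Subtype.val (hfaith (up' S) (Corner.up_mul_proj U _) h')
    refine Subtype.ext ?_
    have h1 := congrArg (Corner.down U) h0
    rw [show Corner.down U ((up' S : M.toStarSubalgebra) : H →L[ℂ] H) = (S : U →L[ℂ] U) from
      Corner.down_up U _] at h1
    rw [h1]
    simp [Corner.down]

/-- So-paving on the part of a MASA covered by supports of central normal functionals. -/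
theorem supp_part_paving {ε : ℝ} {r : ℕ}
    (hpave : ∀ (U : Submodule ℂ H) [CompleteSpace U] (hU : U.starProjection ∈ A),
      HasFaithfulCentralNormal (Corner.cornerAlg U M) (Corner.cornerMASA U A hU) →
      ∀ x ∈ Corner.cornerAlg U M, IsSelfAdjoint x →
        SOPavable (Corner.cornerAlg U M) (Corner.cornerMASA U A hU) x ε r)
    (hε : 0 ≤ ε) (hr : 0 < r) (hA : IsMASA M A) {z f : H →L[ℂ] H} (hzA : z ∈ A)
    (hzP : IsStarProjection z) (hf : IsSuppProj M A f) (hfz : f * z = f) {x : H →L[ℂ] H}
    (hx : x ∈ M) (hxs : IsSelfAdjoint x) (F : Finset H) {δ : ℝ} (hδ : 0 < δ)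
    (hfF : ∀ v ∈ F, ‖(z - f) v‖ < δ / 2) :
    ∃ (p : Fin r → H →L[ℂ] H) (a q : H →L[ℂ] H),
      (∀ i, p i ∈ A) ∧ (∀ i, IsStarProjection (p i)) ∧ (∀ i j, i ≠ j → p i * p j = 0) ∧
      ∑ i, p i = z ∧ a ∈ A ∧ IsSelfAdjoint a ∧ a * z = a ∧ ‖a‖ ≤ ‖x‖ ∧ q ∈ M ∧
      IsStarProjection q ∧ q * z = q ∧ (∀ v ∈ F, ‖(z - q) v‖ < δ) ∧
      ‖q * ((∑ i, p i * x * p i) - a) * q‖ ≤ ε * ‖x‖ := by
  classical
  have hzf : z * f = f := by rw [hA.2.1 z hzA f hf.1, hfz]
  obtain ⟨_, hfU⟩ := isStarProjection_iff_eq_starProjection_range.1 hf.2.1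
  set U := f.range with hU
  set i0 : Fin r := ⟨0, hr⟩
  have hclosed : IsClosed (U : Set H) := U.orthogonal_orthogonal ▸ U.orthogonal.isClosed_orthogonal
  have : CompleteSpace U := hclosed.completeSpace_coe
  have hUA : U.starProjection ∈ A := by rw [← hfU]; exact hf.1
  have hUM := hA.1 _ hUA
  have hUf : IsSuppProj M A U.starProjection := by rw [← hfU]; exact hf
  have hxs' : IsSelfAdjoint (Corner.down U x) := by
    rw [IsSelfAdjoint, ← Corner.down_star, hxs.star_eq]
  obtain ⟨p, a, q, hp, ha, has, han, hq, hqP, hqF, hnorm⟩ :=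
    hpave U hUA (hasFaithful_corner hA U hUA hUf) _
      (Corner.down_mem_cornerAlg U hUM hx) hxs' (F.image U.orthogonalProjectionOnto) (δ / 2)
      (half_pos hδ)
  obtain ⟨hpA, hpP, hpo, hp1⟩ := hp
  have hupz : ∀ S, Corner.up U S * z = Corner.up U S := fun S => by
    conv_lhs => rw [← Corner.up_mul_proj U S, ← hfU, mul_assoc, hfz, hfU, Corner.up_mul_proj]
  have hzup : ∀ S, z * Corner.up U S = Corner.up U S := fun S => by
    conv_lhs => rw [← Corner.proj_mul_up U S, ← hfU, ← mul_assoc, hzf, hfU, Corner.proj_mul_up]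
  have hupf : ∀ S, Corner.up U S * (z - f) = 0 := fun S => by
    rw [mul_sub, hupz, hfU, Corner.up_mul_proj, sub_self]
  have hfup : ∀ S, (z - f) * Corner.up U S = 0 := fun S => by
    rw [sub_mul, hzup, hfU, Corner.proj_mul_up, sub_self]
  have hd : IsStarProjection (z - f) := by
    refine ⟨?_, hzP.isSelfAdjoint.sub hf.2.1.isSelfAdjoint⟩
    rw [IsIdempotentElem, mul_sub, sub_mul, sub_mul, hzP.isIdempotentElem.eq, hfz, hzf,
      hf.2.1.isIdempotentElem.eq]
    simp
  set P : Fin r → H →L[ℂ] H := fun i => Corner.up U (p i) + if i = i0 then z - f else 0 with hP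
  have hqP' : ∀ i, Corner.up U q * P i = Corner.up U (q * p i) := fun i => by
    simp only [hP, mul_add, Corner.up_mul]
    split_ifs
    · rw [hupf, add_zero]
    · rw [mul_zero, add_zero]
  have hPq' : ∀ i, P i * Corner.up U q = Corner.up U (p i * q) := fun i => by
    simp only [hP, add_mul, Corner.up_mul]
    split_ifs
    · rw [hfup, add_zero]
    · rw [zero_mul, add_zero]
  refine ⟨P, Corner.up U a, Corner.up U q, fun i => ?_, fun i => ?_, fun i j hij => ?_, ?_,
    ha, ?_, hupz a, ?_, (Corner.mem_cornerAlg U hUM).1 hq, Corner.isStarProjection_up U hqP,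
    hupz q, fun v hv => ?_, ?_⟩
  · simp only [hP]
    refine add_mem (hpA i) ?_
    split_ifs
    exacts [sub_mem hzA hf.1, zero_mem A]
  · simp only [hP]
    split_ifs
    · exact (Corner.isStarProjection_up U (hpP i)).add hd (hupf _)
    · rw [add_zero]; exact Corner.isStarProjection_up U (hpP i)
  · simp only [hP]
    have h0 : Corner.up U (p i) * Corner.up U (p j) = 0 := by
      rw [← Corner.up_mul, hpo i j hij, Corner.up_zero]
    by_cases h1 : i = i0
    · rw [if_pos h1, if_neg (fun h2 : j = i0 => hij (h1.trans h2.symm)), add_zero, add_mul, h0,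
        hfup, add_zero]
    · rw [if_neg h1, add_zero, mul_add, h0, zero_add]
      split_ifs
      exacts [hupf _, mul_zero _]
  · simp only [hP, Finset.sum_add_distrib, ← Corner.up_sum, hp1, Corner.up_one,
      Finset.sum_ite_eq', Finset.mem_univ, if_true]
    rw [show U.starProjection = f from hfU.symm, add_sub_cancel]
  · rw [IsSelfAdjoint, ← Corner.up_star, has.star_eq]
  · exact (Corner.norm_up_le U a).trans (han.trans (Corner.norm_down_le U x))
  · have h1 := hqF _ (Finset.mem_image_of_mem _ hv)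
    have h2 : ‖(f - Corner.up U q) v‖ < δ / 2 := by
      rw [hfU, ← Corner.up_one U, ← Corner.up_sub]
      exact h1
    have e : (z - Corner.up U q) v = (z - f) v + (f - Corner.up U q) v := by simp
    rw [e]
    linarith [norm_add_le ((z - f) v) ((f - Corner.up U q) v), hfF v hv]
  · have e : Corner.up U q * ((∑ i, P i * x * P i) - Corner.up U a) * Corner.up U q
        = Corner.up U (q * ((∑ i, p i * Corner.down U x * p i) - a) * q) := by
      rw [mul_sub, sub_mul, mul_sub q, sub_mul, Corner.up_sub, Finset.mul_sum, Finset.sum_mul,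
        Finset.mul_sum, Finset.sum_mul, Corner.up_sum, Corner.up_mul, Corner.up_mul]
      congr 1
      refine Finset.sum_congr rfl fun i _ => ?_
      calc Corner.up U q * (P i * x * P i) * Corner.up U q
          = (Corner.up U q * P i) * x * (P i * Corner.up U q) := by simp only [mul_assoc]
        _ = Corner.up U (q * p i) * U.starProjection * x
              * (U.starProjection * Corner.up U (p i * q)) := by
            rw [hqP', hPq', Corner.up_mul_proj, Corner.proj_mul_up]
        _ = Corner.up U (q * p i) * Corner.up U (Corner.down U x) * Corner.up U (p i * q) := by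
            simp only [Corner.up_down, mul_assoc]
        _ = _ := by simp only [← Corner.up_mul, mul_assoc]
    rw [e]
    exact (Corner.norm_up_le U _).trans (hnorm.trans
      (mul_le_mul_of_nonneg_left (Corner.norm_down_le U x) hε))

/-- So-paving over a MASA reduces to its corners with a faithful central normal functional. -/
theorem paving_of_corner_case {ε : ℝ} {r₁ r₂ : ℕ} (hε : 0 < ε) (hr₁ : 0 < r₁)
    (hr₂ : 2 ≤ ε * r₂)
    (hpave : ∀ (U : Submodule ℂ H) [CompleteSpace U] (hU : U.starProjection ∈ A),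
      HasFaithfulCentralNormal (Corner.cornerAlg U M) (Corner.cornerMASA U A hU) →
      ∀ x ∈ Corner.cornerAlg U M, IsSelfAdjoint x →
        SOPavable (Corner.cornerAlg U M) (Corner.cornerMASA U A hU) x ε r₁)
    (hA : IsMASA M A) {x : H →L[ℂ] H} (hxM : x ∈ M) (hxs : IsSelfAdjoint x) :
    SOPavable M A x ε (r₁ + r₂) := by
  intro F δ hδ
  obtain ⟨z, hzA, hz, hfz, happ⟩ := exists_supp_cover hA
  obtain ⟨f, hf, hfF⟩ := happ F (δ / 2 / 2) (by positivity)
  obtain ⟨p, a, q, hpA, hpP, hpo, hp1, ha, has, haz, han, hq, hqP, hqz, hqF, hn⟩ :=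
    supp_part_paving hpave hε.le hr₁ hA hzA hz hf (hfz f hf) hxM hxs F (half_pos hδ) hfF
  set e := 1 - z with hedef
  have heA : e ∈ A := sub_mem (one_mem A) hzA
  have he : IsStarProjection e := hz.one_sub
  have hsing : ∀ ψ, IsCentralNormal M A ψ →
      ψ (1 - ⟨e, hA.1 e heA⟩ : M.toStarSubalgebra) = 0 → ψ 1 = 0 := by
    intro ψ hψ h0
    set z' : M.toStarSubalgebra := ⟨z, hA.1 z hzA⟩ with hz'
    have h1 : (1 - ⟨e, hA.1 e heA⟩ : M.toStarSubalgebra) = star z' * z' := Subtype.ext (by
      show (1 : H →L[ℂ] H) - (1 - z) = star z * z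
      rw [hz.isSelfAdjoint.star_eq, hz.isIdempotentElem.eq, sub_sub_cancel])
    rw [h1] at h0
    obtain ⟨hs, hkill⟩ := isSuppProj_suppOf hA hψ
    refine eq_zero_of_suppOf hψ ?_
    rw [← hfz _ hs, hA.2.1 _ hs.1 z hzA]
    exact hkill z' h0
  obtain ⟨P, b, Q, hPA, hPP, hPo, hP1, hb, hbs, hbe, hbn, hQ, hQP, hQe, hQF, hN⟩ :=
    sing_part_paving hA he heA hsing hε hr₂ hxM hxs F (half_pos hδ)
  have hze : z * e = 0 := by rw [hedef, mul_sub, mul_one, hz.isIdempotentElem.eq, sub_self]
  have hez : e * z = 0 := by rw [hedef, sub_mul, one_mul, hz.isIdempotentElem.eq, sub_self]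
  have hzq : z * q = q := by
    have h := congrArg star hqz
    rwa [star_mul, hqP.isSelfAdjoint.star_eq, hz.isSelfAdjoint.star_eq] at h
  have heQ : e * Q = Q := by
    have h := congrArg star hQe
    rwa [star_mul, hQP.isSelfAdjoint.star_eq, he.isSelfAdjoint.star_eq] at h
  have hpz : ∀ i, p i * z = p i ∧ z * p i = p i := fun i => hp1 ▸ f_mul_z hpP hpo i
  have hPe : ∀ i, P i * e = P i ∧ e * P i = P i := fun i => hP1 ▸ f_mul_z hPP hPo i
  have hkill : ∀ i j, p i * P j = 0 ∧ P j * p i = 0 := fun i j => by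
    constructor
    · rw [← (hpz i).1, ← (hPe j).2, mul_assoc, ← mul_assoc z, hze, zero_mul, mul_zero]
    · rw [← (hPe j).1, ← (hpz i).2, mul_assoc, ← mul_assoc e, hez, zero_mul, mul_zero]
  have hqQ : q * Q = 0 := by
    rw [← hqz, ← heQ, mul_assoc, ← mul_assoc z, hze, zero_mul, mul_zero]
  refine ⟨Fin.append p P, a + b, q + Q, ⟨?_, ?_, ?_, ?_⟩, add_mem ha hb, has.add hbs, ?_,
    add_mem hq hQ, hqP.add hQP hqQ, fun v hv => ?_, ?_⟩
  · exact Fin.addCases (fun i => by rw [Fin.append_left]; exact hpA i)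
      (fun j => by rw [Fin.append_right]; exact hPA j)
  · exact Fin.addCases (fun i => by rw [Fin.append_left]; exact hpP i)
      (fun j => by rw [Fin.append_right]; exact hPP j)
  · intro i j hij
    induction i using Fin.addCases with
    | left i =>
      induction j using Fin.addCases with
      | left j =>
        rw [Fin.append_left, Fin.append_left]
        exact hpo i j fun h => hij (by rw [h])
      | right j => rw [Fin.append_left, Fin.append_right]; exact (hkill i j).1
    | right i =>
      induction j using Fin.addCases with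
      | left j => rw [Fin.append_left, Fin.append_right]; exact (hkill j i).2
      | right j =>
        rw [Fin.append_right, Fin.append_right]
        exact hPo i j fun h => hij (by rw [h])
  · rw [Fin.sum_univ_add]
    simp only [Fin.append_left, Fin.append_right]
    rw [hp1, hP1, hedef, add_sub_cancel]
  · refine norm_blocks_le hz ?_ ?_ han hbn
    · rw [hA.2.1 z hzA a ha, mul_assoc, hz.isIdempotentElem.eq, haz]
    · rw [← hedef, hA.2.1 e heA b hb, mul_assoc, he.isIdempotentElem.eq, hbe]
  · have h : (1 - (q + Q)) v = (z - q) v + (e - Q) v := by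
      rw [← add_apply, hedef]; congr 1; abel
    rw [h]
    linarith [norm_add_le ((z - q) v) ((e - Q) v), hqF v hv, hQF v hv]
  · rw [Fin.sum_univ_add]
    simp only [Fin.append_left, Fin.append_right]
    set S₁ := ∑ i, p i * x * p i with hS₁
    set S₂ := ∑ i, P i * x * P i with hS₂
    have hz1 : z * (S₁ - a) * z = S₁ - a := by
      rw [mul_sub, sub_mul, hS₁, Finset.mul_sum, Finset.sum_mul]
      congr 1
      · exact Finset.sum_congr rfl fun i _ => sandwich_eq (hpz i).2 (hpz i).1
      · rw [hA.2.1 z hzA a ha, mul_assoc, hz.isIdempotentElem.eq, haz]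
    have he1 : e * (S₂ - b) * e = S₂ - b := by
      rw [mul_sub e S₂ b, sub_mul (e * S₂), hS₂, Finset.mul_sum, Finset.sum_mul]
      congr 1
      · exact Finset.sum_congr rfl fun i _ => sandwich_eq (hPe i).2 (hPe i).1
      · rw [hA.2.1 e heA b hb, mul_assoc, he.isIdempotentElem.eq, hbe]
    have hq_e : q * e = 0 := by rw [← hqz, mul_assoc, hze, mul_zero]
    have he_q : e * q = 0 := by rw [← hzq, ← mul_assoc, hez, zero_mul]
    have hQ_z : Q * z = 0 := by rw [← hQe, mul_assoc, hez, mul_zero]
    have hz_Q : z * Q = 0 := by rw [← heQ, ← mul_assoc, hze, zero_mul]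
    have hA1 : (q + Q) * (S₁ - a) * (q + Q) = q * (S₁ - a) * q := by
      conv_lhs => rw [← hz1]
      conv_rhs => rw [← hz1]
      simp only [add_mul, mul_add, ← mul_assoc, hQ_z, zero_mul, add_zero]
      simp only [mul_assoc, hz_Q, mul_zero, add_zero]
    have hA2 : (q + Q) * (S₂ - b) * (q + Q) = Q * (S₂ - b) * Q := by
      conv_lhs => rw [← he1]
      conv_rhs => rw [← he1]
      simp only [add_mul, mul_add, ← mul_assoc, hq_e, zero_mul, zero_add]
      simp only [mul_assoc, he_q, mul_zero, zero_add]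
    rw [show S₁ + S₂ - (a + b) = (S₁ - a) + (S₂ - b) by abel, mul_add (q + Q), add_mul _ _ (q + Q),
      hA1, hA2]
    refine norm_blocks_le hz (sandwich_eq hzq hqz) ?_ hn hN
    rw [← hedef]
    exact sandwich_eq heQ hQe

/-- So-paving over every MASA reduces to MASAs with a faithful central normal functional. -/
theorem paving_of_faithful_case {ε : ℝ} {r₁ r₂ : ℕ} (hε : 0 < ε) (hr₁ : 0 < r₁)
    (hr₂ : 2 ≤ ε * r₂)
    (hpave : ∀ (K : Type u) [NormedAddCommGroup K] [InnerProductSpace ℂ K] [CompleteSpace K]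
      (M : VonNeumannAlgebra K) (A : StarSubalgebra ℂ (K →L[ℂ] K)),
      IsMASA M A → HasFaithfulCentralNormal M A →
      ∀ x ∈ M, IsSelfAdjoint x → SOPavable M A x ε r₁)
    (hA : IsMASA M A) {x : H →L[ℂ] H} (hxM : x ∈ M) (hxs : IsSelfAdjoint x) :
    SOPavable M A x ε (r₁ + r₂) :=
  paving_of_corner_case hε hr₁ hr₂
    (fun U _ hU hf => hpave U _ _ (Corner.isMASA_corner U hA hU) hf) hA hxM hxs

end Gen

end Vale.Agent.P078
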